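import Vale.Agent.P181.H75.RDefs

set_option autoImplicit false

/-!
# P181: the total `R4` from the neighbour swaps, the base and the signed number of subsets
-/

namespace Vale.Agent.P181.H73

open Finset

section R4

variable {a k q b : ℕ}

/-- Swapping a kept and a dissolved neighbour, all placements. -/
lemma tk_swap (h1 : H75.R1) (hab : a < b) (ha : 0 < a) (s : ℕ) (hs : s + 1 < b)
    (K : Finset (Fin b)) (hsK : (⟨s, by omega⟩ : Fin b) ∉ K) (hsK' : (⟨s + 1, hs⟩ : Fin b) ∈ K) :
    H75.TK k q hab.le (K.image (Equiv.swap (⟨s, by omega⟩ : Fin b) ⟨s + 1, hs⟩)) =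
      (-1) ^ (a - 1) * H75.TK k q hab.le K := by
  classical
  set w : Equiv.Perm (Fin b) := Equiv.swap (⟨s, by omega⟩ : Fin b) ⟨s + 1, hs⟩ with hw
  have hds : ∀ E : H75.Rl k a q ≃ Fin b, H75.ds (E.trans w) = (H75.ds E).image w := by
    intro E
    unfold H75.ds
    rw [Finset.image_image]
    rfl
  unfold H75.TK
  rw [Finset.mul_sum]
  symm
  refine Finset.sum_bij' (fun E _ => E.trans w) (fun E _ => E.trans w) ?_ ?_ ?_ ?_ ?_
  · intro E hE
    rw [Finset.mem_filter] at hE ⊢
    exact ⟨Finset.mem_univ _, by rw [hds, hE.2]⟩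
  · intro E hE
    rw [Finset.mem_filter] at hE ⊢
    refine ⟨Finset.mem_univ _, ?_⟩
    rw [hds, hE.2, Finset.image_image]
    have h2 : (w : Fin b → Fin b) ∘ w = id := by
      funext t
      simp [hw]
    rw [h2, Finset.image_id]
  · intro E _
    ext t
    simp [hw]
  · intro E _
    ext t
    simp [hw]
  · intro E hE
    rw [Finset.mem_filter] at hE
    have hk : ∃ pj, E.symm ⟨s, by omega⟩ = Sum.inr pj := by
      rcases h : E.symm ⟨s, by omega⟩ with r | pj
      · exfalso
        apply hsK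
        rw [← hE.2, H75.ds, Finset.mem_image]
        exact ⟨r, Finset.mem_univ _, by rw [← h, Equiv.apply_symm_apply]⟩
      · exact ⟨pj, rfl⟩
    have hr : ∃ r, E.symm ⟨s + 1, hs⟩ = Sum.inl r := by
      have h3 := hsK'
      rw [← hE.2, H75.ds, Finset.mem_image] at h3
      obtain ⟨r, _, hr⟩ := h3
      exact ⟨r, by rw [← hr, Equiv.symm_apply_apply]⟩
    obtain ⟨pj, hpj⟩ := hk
    obtain ⟨r, hr⟩ := hr
    exact (h1 a k q b hab ha s hs E r pj hpj hr).symm

lemma sum_image_swap (s : ℕ) (hs : s + 1 < b) (K : Finset (Fin b))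
    (hsK : (⟨s, by omega⟩ : Fin b) ∈ K) (hsK' : (⟨s + 1, hs⟩ : Fin b) ∉ K) :
    ∑ t ∈ K.image (Equiv.swap (⟨s, by omega⟩ : Fin b) ⟨s + 1, hs⟩), (t : ℕ) =
      ∑ t ∈ K, (t : ℕ) + 1 := by
  classical
  rw [Finset.sum_image (by
    intro x _ y _ h
    exact Equiv.injective _ h)]
  have h2 : ∀ t ∈ K, ((Equiv.swap (⟨s, by omega⟩ : Fin b) ⟨s + 1, hs⟩ t : Fin b) : ℕ) =
      (t : ℕ) + if t = (⟨s, by omega⟩ : Fin b) then 1 else 0 := by
    intro t ht
    by_cases h3 : t = (⟨s, by omega⟩ : Fin b)
    · rw [if_pos h3, h3, Equiv.swap_apply_left]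
    · rw [if_neg h3, Equiv.swap_apply_of_ne_of_ne h3 (by
        rintro rfl
        exact hsK' ht), Nat.add_zero]
  rw [Finset.sum_congr rfl h2, Finset.sum_add_distrib, Finset.sum_ite_eq' K, if_pos hsK]

/-- A set closed under neighbours above. -/
lemma eq_top (hb : b = q * a + k) (K : Finset (Fin b)) (hK : K.card = k)
    (hup : ∀ (s : ℕ) (hs : s + 1 < b), (⟨s, by omega⟩ : Fin b) ∈ K →
      (⟨s + 1, hs⟩ : Fin b) ∈ K) :
    K = univ.filter (fun s : Fin b => q * a ≤ (s : ℕ)) := by
  classical
  have hup2 : ∀ (d s : ℕ) (hs : s + d < b), (⟨s, by omega⟩ : Fin b) ∈ K →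
      (⟨s + d, hs⟩ : Fin b) ∈ K := by
    intro d
    induction d with
    | zero =>
      intro s _ h
      exact h
    | succ d ih =>
      intro s hs h
      exact hup (s + d) hs (ih s (by omega) h)
  apply Finset.eq_of_subset_of_card_le
  · intro s hs
    rw [Finset.mem_filter]
    refine ⟨Finset.mem_univ _, ?_⟩
    by_contra hlt
    push Not at hlt
    have h1 : Finset.Ici s ⊆ K := by
      intro t ht
      rw [Finset.mem_Ici, Fin.le_def] at ht
      have h2 := hup2 ((t : ℕ) - s) s (by omega) hs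
      have h3 : (⟨(s : ℕ) + ((t : ℕ) - s), by omega⟩ : Fin b) = t := Fin.ext (by
        show (s : ℕ) + ((t : ℕ) - s) = t
        omega)
      rwa [h3] at h2
    have h4 := Finset.card_le_card h1
    rw [Fin.card_Ici, hK] at h4
    have := s.2
    omega
  · rw [hK]
    by_cases hk : k = 0
    · have h5 : (univ.filter (fun s : Fin b => q * a ≤ (s : ℕ))) = ∅ := by
        apply Finset.filter_eq_empty_iff.2
        intro s _
        have := s.2
        omega
      rw [h5]
      simp
    · have h5 : (univ.filter (fun s : Fin b => q * a ≤ (s : ℕ))) ⊆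
          Finset.Ici (⟨q * a, by omega⟩ : Fin b) := by
        intro s hs
        rw [Finset.mem_filter] at hs
        rw [Finset.mem_Ici, Fin.le_def]
        exact hs.2
      refine (Finset.card_le_card h5).trans ?_
      rw [Fin.card_Ici]
      show b - q * a ≤ k
      omega

lemma sq_sign (n m : ℕ) : (((-1 : ℤ) ^ n) ^ m) * (((-1 : ℤ) ^ n) ^ m) = 1 := by
  rw [← mul_pow, ← pow_add, ← two_mul, pow_mul, neg_one_sq, one_pow, one_pow]

/-- All dissolved sets contribute the same up to sign. -/
lemma tk_eq (h1 : H75.R1) (ha : 0 < a) (hab : a ≤ b) (hb : b = q * a + k) (hq : 0 < q) :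
    ∀ (n : ℕ) (K : Finset (Fin b)), K.card = k → k * b ≤ ∑ s ∈ K, (s : ℕ) + n →
      H75.TK k q hab K = ((-1 : ℤ) ^ (a - 1)) ^ (∑ s ∈ K, (s : ℕ)) *
        (((-1 : ℤ) ^ (a - 1)) ^ (∑ s ∈ univ.filter (fun s : Fin b => q * a ≤ (s : ℕ)), (s : ℕ)) *
          H75.TK k q hab (univ.filter (fun s : Fin b => q * a ≤ (s : ℕ)))) := by
  classical
  intro n
  induction n with
  | zero =>
    intro K hK hn
    by_cases hk : k = 0
    · have h2 : K = univ.filter (fun s : Fin b => q * a ≤ (s : ℕ)) := by
        apply eq_top hb K hK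
        intro s hs h
        exfalso
        have h3 := Finset.card_pos.2 ⟨_, h⟩
        omega
      rw [← h2, ← mul_assoc, sq_sign, one_mul]
    · exfalso
      have h3 : ∑ s ∈ K, (s : ℕ) < ∑ s ∈ K, b := by
        apply Finset.sum_lt_sum_of_nonempty
        · rw [← Finset.card_pos]
          omega
        · intro s _
          exact s.2
      rw [Finset.sum_const, hK, smul_eq_mul] at h3
      omega
  | succ n ih =>
    intro K hK hn
    by_cases hup : ∀ (s : ℕ) (hs : s + 1 < b), (⟨s, by omega⟩ : Fin b) ∈ K →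
        (⟨s + 1, hs⟩ : Fin b) ∈ K
    · rw [← eq_top hb K hK hup, ← mul_assoc, sq_sign, one_mul]
    · push Not at hup
      obtain ⟨s, hs, hsK, hsK'⟩ := hup
      have hab' : a < b := by
        rcases lt_or_eq_of_le hab with h | h
        · exact h
        · exfalso
          obtain ⟨q', rfl⟩ : ∃ q', q = q' + 1 := ⟨q - 1, by omega⟩
          have h2 : (q' + 1) * a = q' * a + a := by ring
          have hk : k = 0 := by omega
          have h3 := Finset.card_pos.2 ⟨_, hsK⟩
          omega
      set w : Equiv.Perm (Fin b) := Equiv.swap (⟨s, by omega⟩ : Fin b) ⟨s + 1, hs⟩ with hw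
      have hsum : ∑ t ∈ K.image w, (t : ℕ) = ∑ t ∈ K, (t : ℕ) + 1 :=
        sum_image_swap s hs K hsK hsK'
      have hcard : (K.image w).card = k := by
        rw [Finset.card_image_of_injective _ w.injective, hK]
      have hIH := ih (K.image w) hcard (by omega)
      have hm1 : (⟨s, by omega⟩ : Fin b) ∉ K.image w := by
        rw [Finset.mem_image]
        rintro ⟨t, ht, htw⟩
        have h3 : t = (⟨s + 1, hs⟩ : Fin b) := by
          apply w.injective
          rw [htw, hw, Equiv.swap_apply_right]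
        rw [h3] at ht
        exact hsK' ht
      have hm2 : (⟨s + 1, hs⟩ : Fin b) ∈ K.image w := by
        rw [Finset.mem_image]
        exact ⟨_, hsK, by rw [hw, Equiv.swap_apply_left]⟩
      have hT := tk_swap (k := k) (q := q) h1 hab' ha s hs (K.image w) hm1 hm2
      have hKK : (K.image w).image w = K := by
        rw [Finset.image_image]
        have h2 : (w : Fin b → Fin b) ∘ w = id := by
          funext t
          simp [hw]
        rw [h2, Finset.image_id]
      rw [← hw, hKK] at hT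
      rw [hT, hIH, hsum, pow_succ]
      have h4 : ((-1 : ℤ) ^ (a - 1)) * ((-1 : ℤ) ^ (a - 1)) = 1 := by
        have := sq_sign (a - 1) 1
        rwa [pow_one] at this
      linear_combination ((-1 : ℤ) ^ (a - 1)) ^ (∑ s ∈ K, (s : ℕ)) *
        (((-1 : ℤ) ^ (a - 1)) ^ (∑ s ∈ univ.filter (fun s : Fin b => q * a ≤ (s : ℕ)), (s : ℕ)) *
          H75.TK k q hab (univ.filter (fun s : Fin b => q * a ≤ (s : ℕ)))) * h4

/-- **[R4]** from [R1], [R2], [R3]. -/
theorem r4 (h1 : H75.R1) (h2 : H75.R2) (h3 : H75.R3) : H75.R4 := by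
  classical
  intro a k q b hab ha hq hb hev
  have hcard : ∀ E : H75.Rl k a q ≃ Fin b, (H75.ds E).card = k := by
    intro E
    rw [H75.ds, Finset.card_image_of_injective _ (by
      intro r r' h
      exact Sum.inl_injective (E.injective h)), Finset.card_univ, Fintype.card_fin]
  have hsum : ∑ E : H75.Rl k a q ≃ Fin b, H75.T hab E =
      ∑ K ∈ powersetCard k (univ : Finset (Fin b)), H75.TK k q hab K := by
    unfold H75.TK
    rw [Finset.sum_fiberwise_of_maps_to]
    intro E _
    rw [Finset.mem_powersetCard]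
    exact ⟨Finset.subset_univ _, hcard E⟩
  rw [hsum]
  have hK : ∀ K ∈ powersetCard k (univ : Finset (Fin b)), H75.TK k q hab K =
      ((-1 : ℤ) ^ (a - 1)) ^ (∑ s ∈ K, (s : ℕ)) *
        (((-1 : ℤ) ^ (a - 1)) ^ (∑ s ∈ univ.filter (fun s : Fin b => q * a ≤ (s : ℕ)), (s : ℕ)) *
          H75.TK k q hab (univ.filter (fun s : Fin b => q * a ≤ (s : ℕ)))) := by
    intro K hK
    rw [Finset.mem_powersetCard] at hK
    exact tk_eq h1 ha hab hb hq (k * b) K hK.2 (by omega)
  rw [Finset.sum_congr rfl hK, ← Finset.sum_mul]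
  apply mul_ne_zero
  · apply h3 a k b ha (by omega) hev
    rcases Nat.even_or_odd a with h | h
    · right
      have h5 : Even (q * a) := h.mul_left q
      rw [hb, Nat.even_add] at hev
      exact hev.1 h5
    · left
      exact h
  · apply mul_ne_zero
    · exact pow_ne_zero _ (pow_ne_zero _ (by norm_num))
    · exact h2 a k q b hab ha hq hb hev

end R4

end Vale.Agent.P181.H73
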