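import Vale.Agent.P181.H75.RDefs
import Vale.Agent.P181.H270.Master

set_option autoImplicit false

/-!
# P181: the full placement identity (rectangle) for the hybrid maps, from the total `R4`
-/

namespace Vale.Agent.P181.H73

open Vale.Agent.P181 Vale.Agent.P181.H280 Vale.Agent.P181.H270 Finset

section R5

variable {a k q b : ℕ}

lemma ad_inj {b c c' i : ℕ} (hc : c < b) (hc' : c' < b) (hi : i ≤ b)
    (h : H75.ad b c i = H75.ad b c' i) : c = c' := by
  unfold H75.ad at h
  split_ifs at h <;> omega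

lemma ad_surj {b s i : ℕ} (hs : s < b) (hi : i < b) : ∃ c, c < b ∧ H75.ad b c i = s := by
  by_cases h : i ≤ s
  · refine ⟨s - i, by omega, ?_⟩
    unfold H75.ad
    rw [if_pos (by omega)]
    omega
  · refine ⟨s + b - i, by omega, ?_⟩
    unfold H75.ad
    rw [if_neg (by omega)]
    omega

/-- **The full placement identity.** -/
theorem place_full (hR4 : H75.R4) {A : Type*} [CommRing A] [Algebra ℂ A] (ha : 0 < a) (hq : 0 < q)
    (hb : b = q * a + k) (hev : Even b) (L : Submodule ℂ A)
    (F : MultilinearMap ℂ (fun _ : Fin a => A) ℂ) (hF : Rel k q L F)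
    (x : Fin a → A) (hx : ∀ i, x i ∈ L) : ((altC x)^[b] F) (fun _ => 1) = 0 := by
  classical
  have hab : a ≤ b := by
    obtain ⟨q', rfl⟩ : ∃ q', q = q' + 1 := ⟨q - 1, by omega⟩
    have : (q' + 1) * a = q' * a + a := by ring
    omega
  have hcard : Fintype.card (H75.Rl k a q) = b := by
    rw [Fintype.card_sum, Fintype.card_prod, Fintype.card_fin, Fintype.card_fin,
      Fintype.card_fin, hb]
    ring
  let E0 : H75.Rl k a q ≃ Fin b := Fintype.equivFinOfCardEq hcard
  let P : Fin b → Fin a → (Fin k ⊕ (Fin a × Fin q)) × Fin a := fun c i =>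
    (E0.symm ⟨H75.ad b c i, H75.ad_lt c.2 (i.2.le.trans hab)⟩, i)
  have hP : ∀ c i c' i', P c i = P c' i' → c = c' ∧ i = i' := by
    intro c i c' i' h
    have h2 : i = i' := congrArg Prod.snd h
    subst h2
    have h1 := E0.symm.injective (congrArg Prod.fst h)
    have h3 := congrArg Fin.val h1
    exact ⟨Fin.ext (ad_inj c.2 c'.2 (i.2.le.trans hab) h3), rfl⟩
  have hm := master L F hF x hx P hP (fun _ => 1) (fun _ _ => rfl) (by
    intro pos hpos
    exfalso
    obtain ⟨c, hc, hcs⟩ := ad_surj (E0 pos.1).2 (lt_of_lt_of_le pos.2.2 hab)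
    apply hpos ⟨c, hc⟩ pos.2
    apply Prod.ext
    · show pos.1 = E0.symm _
      rw [Equiv.eq_symm_apply]
      exact Fin.ext hcs.symm
    · rfl)
  have hcont : ∀ s : (Fin k ⊕ (Fin a × Fin q)) × Fin a → Fin a,
      cont s (fun _ => (1 : A)) = fun _ => 1 := by
    intro s
    funext p
    rw [cont]
    apply Finset.prod_eq_one
    intro pos _
    split_ifs <;> rfl
  have hterm : ∀ (e : Equiv.Perm (Fin k ⊕ (Fin a × Fin q))) (σ : Fin k → Equiv.Perm (Fin a)),
      (if h : ∀ c, Function.Bijective (fun i => slot e σ (P c i)) then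
        (∏ c, ((Equiv.Perm.sign (Equiv.ofBijective _ (h c)) : ℤ) : ℂ)) *
          ((altC x)^[b] F) (cont (slot e σ) (fun _ => (1 : A))) else 0) =
      ((H75.W hab (e.trans E0) σ : ℤ) : ℂ) * ((altC x)^[b] F) (fun _ => 1) := by
    intro e σ
    have hcol : ∀ c, (fun i => slot e σ (P c i)) = H75.col hab (e.trans E0) σ c := by
      intro c
      funext i
      rfl
    by_cases h : ∀ c, Function.Bijective (fun i => slot e σ (P c i))
    · rw [dif_pos h, hcont, H75.W, Int.cast_prod]
      congr 1
      apply Finset.prod_congr rfl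
      intro c _
      have h1 : Function.Bijective (H75.col hab (e.trans E0) σ c) := by
        rw [← hcol]
        exact h c
      rw [H75.sg, dif_pos h1]
      rfl
    · rw [dif_neg h]
      push Not at h
      obtain ⟨c, hc⟩ := h
      have h1 : ¬ Function.Bijective (H75.col hab (e.trans E0) σ c) := by
        rw [← hcol]
        exact hc
      have h2 : H75.W hab (e.trans E0) σ = 0 := by
        rw [H75.W]
        apply Finset.prod_eq_zero (Finset.mem_univ c)
        rw [H75.sg, dif_neg h1]
      rw [h2]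
      simp
  simp only [hterm] at hm
  have hsum : (∑ e : Equiv.Perm (Fin k ⊕ (Fin a × Fin q)),
      ∑ σ : Fin k → Equiv.Perm (Fin a), ((H75.W hab (e.trans E0) σ : ℤ) : ℂ) *
        ((altC x)^[b] F) (fun _ => 1)) =
      ((∑ E : H75.Rl k a q ≃ Fin b, H75.T hab E : ℤ) : ℂ) * ((altC x)^[b] F) (fun _ => 1) := by
    rw [Int.cast_sum, Finset.sum_mul]
    rw [← Equiv.sum_comp (Equiv.equivCongr (Equiv.refl (H75.Rl k a q)) E0)
      (fun E => ((H75.T hab E : ℤ) : ℂ) * ((altC x)^[b] F) (fun _ => 1))]
    apply Finset.sum_congr rfl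
    intro e _
    rw [H75.T, Int.cast_sum, Finset.sum_mul]
    rfl
  rw [hsum] at hm
  refine (mul_eq_zero.1 hm).resolve_left ?_
  exact_mod_cast hR4 a k q b hab ha hq hb hev

end R5

end Vale.Agent.P181.H73
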