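import Vale.Agent.P181.H73.End2
import Vale.Agent.P181.H270.Perm
import Vale.Agent.P181.H394.HybG2
import Vale.Agent.P181.H530.Zero
import Vale.Agent.P181.H530.Pad

set_option autoImplicit false

/-!
# P181: `b = q a + 1`, tall shapes
-/

open scoped TensorProduct

namespace Vale.Agent.P181.H73

open Vale.Agent.P181 Vale.Agent.P181.H280 Finset MvPolynomial

/-- From `n = a` to all `n ≥ a`. -/
theorem all_n (a b n : ℕ) (han : a ≤ n) (lam : Fin n → ℕ)
    (H : ∀ mu : Fin a → ℕ, Antitone mu → ∑ i, mu i = a * b →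
      (∀ i : Fin a, mu i = lam (Fin.castLE han i)) →
      plethMult a b a mu ≤ plethMult b a a mu) :
    plethMult a b n lam ≤ plethMult b a n lam := by
  by_cases h0 : plethMult a b n lam = 0
  · rw [h0]
    exact Nat.zero_le _
  · obtain ⟨hanti, hsum, hz⟩ := H530.zero_stmt a b n lam h0
    obtain ⟨k, rfl⟩ := Nat.exists_eq_add_of_le han
    set mu : Fin a → ℕ := fun i => lam (Fin.castAdd k i) with hmu
    have hlam : lam = fun i : Fin (a + k) => if h : (i : ℕ) < a then mu ⟨i, h⟩ else 0 := by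
      funext i
      by_cases hi : (i : ℕ) < a
      · rw [dif_pos hi, hmu]
        congr 1
      · rw [dif_neg hi]
        exact hz i (by omega)
    have key := H mu (by
      intro i j hij
      have hij' : (i : ℕ) ≤ j := hij
      exact hanti (show Fin.castAdd k i ≤ Fin.castAdd k j from hij')) (by
      rw [← hsum, Fin.sum_univ_add]
      have h2 : ∑ i : Fin k, lam (Fin.natAdd a i) = 0 := by
        apply Finset.sum_eq_zero
        intro i _
        exact hz _ (by simp)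
      rw [h2, add_zero]) (fun i => rfl)
    rw [hlam, H530.pad_stmt a b a k mu, H530.pad_stmt b a a k mu]
    exact key

/-- The core of the theorem for `b = (q + 1) a + 1`, `a = c + 4`. -/
theorem tallQ_core {c q b : ℕ} (hq : 1 ≤ q) (lam : Fin (c + 4) → ℕ)
    (hanti : ∀ i, lam (Fin.last (c + 3)) ≤ lam i) (B e : ℕ) (hB : H270.B0 q ≤ B)
    (hB2 : c + 3 + B ≤ q * (c + 4)) (he : Even e) (hec : e ≤ c)
    (hm : lam (Fin.last (c + 3)) = 4 + B + e) (hb : b = (q + 1) * (c + 4) + 1)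
    (ε : H394.T 1 (c + 4) (q + 1) ≃ Fin b) :
    (∀ x ∈ hwSpace lam (plethAct (c + 4) b (c + 4)),
      H394.hybG ε (Fin (c + 4) → ℂ) x = 0 → x = 0) ∧
      plethMult (c + 4) b (c + 4) lam ≤ plethMult b (c + 4) (c + 4) lam := by
  apply H394.plethMult_le_of_formG
  intro l hx hrel
  have hF : H270.Rel 1 (q + 1) (linS (c + 4)) (formOf l) := fun y hy => hrel y hy
  have hHW : HWForm (fun i => (X i : MvPolynomial (Fin (c + 4)) ℂ)) (fun i => pderiv i)
      (fun b => linS (c + 4) ^ b) b (fun i => (lam i : ℂ)) (formOf l) := by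
    have h1 := hwForm_formOf (le_refl (c + 4)) lam l hx
    simpa using h1
  refine endE (r := c + 3) lam (formOf l) (formOf_symm l) hHW (4 + B) e c (q * (c + 4) - B)
    ?_ he hec (by omega) hm hanti ?_
  · have h1 : (q + 1) * (c + 4) = q * (c + 4) + (c + 4) := by ring
    omega
  · intro Q hQ
    have h1 := H270.colQ hq (linS (c + 4)) (formOf l) (formOf_symm l) hF
      (fun i => (X i : MvPolynomial (Fin (c + 4)) ℂ)) (fun i => X_mem_linS _) B hB (by omega)
      Q hQ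
    have h2 : permP 0 Q ((altC (fun i => (X i : MvPolynomial (Fin (c + 4)) ℂ)))^[4 + B]
        (formOf l)) = H270.thQ 0 Q
        ((altC (fun i => (X i : MvPolynomial (Fin (c + 4)) ℂ)))^[4 + B] (formOf l)) := rfl
    rw [h2]
    exact h1

/-- The numerical choice of `B` and `e`. -/
lemma choice (c q m : ℕ) (hq : 1 ≤ q) (h4 : 4 ≤ m) (hlo : 2 * q + 1 ≤ m)
    (hhi : m ≤ q * (c + 4)) :
    ∃ B e, H270.B0 q ≤ B ∧ c + 3 + B ≤ q * (c + 4) ∧ Even e ∧ e ≤ c ∧ m = 4 + B + e := by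
  rcases Nat.lt_or_ge 1 q with h | h
  · have hB0 : H270.B0 q = 2 * q - 3 := by
      rw [H270.B0, if_neg (by omega)]
    obtain ⟨p, rfl⟩ : ∃ p, q = p + 2 := ⟨q - 2, by omega⟩
    have h1 : (p + 2) * (c + 4) = p * (c + 4) + 2 * (c + 4) := by ring
    have h2 : 4 * p ≤ p * (c + 4) := by nlinarith
    set Z := p * (c + 4) with hZ
    rw [h1] at hhi ⊢
    rw [hB0]
    by_cases h3 : m ≤ Z + c + 9
    · exact ⟨m - 4, 0, by omega, by omega, Even.zero, Nat.zero_le _, by omega⟩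
    · -- `e` is the smallest even number with `m - 4 - e ≤ Z + c + 5`
      rcases Nat.even_or_odd (m - (Z + c + 9)) with h4 | h4
      · exact ⟨Z + c + 5, m - (Z + c + 9), by omega, by omega, h4, by omega, by omega⟩
      · refine ⟨Z + c + 4, m - (Z + c + 9) + 1, by omega, by omega, h4.add_one, ?_, by omega⟩
        obtain ⟨k, hk⟩ := h4
        omega
  · have hq1 : q = 1 := by omega
    subst hq1
    rw [H270.B0, if_pos rfl]
    refine ⟨(m - 4) % 2, 2 * ((m - 4) / 2), by omega, by omega, ⟨(m - 4) / 2, by omega⟩,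
      by omega, by omega⟩

/-- **Foulkes' inequality for `(a, q a + 1)`, `q ≥ 2`, tall shapes**: `n = a`. -/
theorem tallQ_injOn {a q b : ℕ} (ha : 4 ≤ a) (hq : 2 ≤ q) (lam : Fin a → ℕ)
    (hanti : Antitone lam) (hb : b = q * a + 1) (h4 : ∀ i, 4 ≤ lam i)
    (hlo : ∀ i, 2 * q - 1 ≤ lam i) (hhi : ∃ i, lam i ≤ (q - 1) * a)
    (ε : H394.T 1 a q ≃ Fin b) :
    (∀ x ∈ hwSpace lam (plethAct a b a), H394.hybG ε (Fin a → ℂ) x = 0 → x = 0) ∧
      plethMult a b a lam ≤ plethMult b a a lam := by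
  obtain ⟨c, rfl⟩ : ∃ c, a = c + 4 := ⟨a - 4, by omega⟩
  obtain ⟨p, rfl⟩ : ∃ p, q = p + 1 := ⟨q - 1, by omega⟩
  have hlast : ∀ i : Fin (c + 4), lam (Fin.last (c + 3)) ≤ lam i := fun i =>
    hanti (Fin.le_last i)
  obtain ⟨i0, hi0⟩ := hhi
  have h1 := hlast i0
  have h2 : (p + 1 - 1) * (c + 4) = p * (c + 4) := by simp
  rw [h2] at hi0
  obtain ⟨B, e, hB, hB2, he, hec, hm⟩ := choice c p (lam (Fin.last (c + 3))) (by omega)
    (h4 _) (by have := hlo (Fin.last (c + 3)); omega) (by omega)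
  exact tallQ_core (by omega) lam hlast B e hB hB2 he hec hm hb ε

/-- **Foulkes' inequality for `(a, q a + 1)`, `q ≥ 2`, tall shapes**, any `n`. -/
theorem tallQ (a q n : ℕ) (ha : 4 ≤ a) (hq : 2 ≤ q) (lam : Fin n → ℕ) (han : a ≤ n)
    (h4 : ∀ i : Fin n, (i : ℕ) < a → 4 ≤ lam i)
    (hlo : ∀ i : Fin n, (i : ℕ) < a → 2 * q - 1 ≤ lam i)
    (hhi : ∃ i : Fin n, (i : ℕ) < a ∧ lam i ≤ (q - 1) * a) :
    plethMult a (q * a + 1) n lam ≤ plethMult (q * a + 1) a n lam := by
  apply all_n a (q * a + 1) n han lam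
  intro mu hanti _ hmu
  refine (tallQ_injOn ha hq mu hanti rfl (fun i => ?_) (fun i => ?_) ?_
    ((H394.numE 1 a q).trans (finCongr (by ring)))).2
  · rw [hmu i]
    exact h4 _ i.2
  · rw [hmu i]
    exact hlo _ i.2
  · obtain ⟨i, hi, hi2⟩ := hhi
    refine ⟨⟨i, hi⟩, ?_⟩
    rw [hmu]
    exact hi2

end Vale.Agent.P181.H73
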