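import Vale.Agent.P181.H73.End
import Vale.Agent.P181.H270.Place

set_option autoImplicit false

/-!
# P181: assembly of the hybrid map argument (`b = a + 1`, tall shapes)
-/

open scoped TensorProduct

namespace Vale.Agent.P181.H73

open Vale.Agent.P181 Vale.Agent.P181.H280 Finset MvPolynomial

/-- The exchange step: `φ(v₁, w v₂, …, w v_a) = 0` implies the column property. -/
def CStmt : Prop := ∀ (A : Type) [CommRing A] [Algebra ℂ A] (L : Submodule ℂ A) (c : ℕ)
  (φ : MultilinearMap ℂ (fun _ : Fin (c + 3) => A) ℂ), IsSgn 3 φ →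
  (∀ w ∈ L, ∀ v : Fin (c + 3) → A, v 0 ∈ L ^ (c + 1) → (∀ p, p ≠ 0 → v p ∈ L ^ c) →
    φ (fun p => if p = 0 then v 0 else w * v p) = 0) → Col L c φ

variable {c : ℕ}

/-- The Capelli descent. -/
theorem descent {r b : ℕ} (lam : Fin (r + 1) → ℕ)
    (F : MultilinearMap ℂ (fun _ : Fin (r + 1) => MvPolynomial (Fin (r + 1)) ℂ) ℂ)
    (hs : IsSymm F)
    (hHW : HWForm (fun i => (X i : MvPolynomial (Fin (r + 1)) ℂ)) (fun i => pderiv i)
      (fun b => linS (r + 1) ^ b) b (fun i => (lam i : ℂ)) F) (m : ℕ) (hmb : m ≤ b)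
    (hm : ∀ i, m ≤ lam i)
    (h0 : ∀ P : Fin (r + 1) → MvPolynomial (Fin (r + 1)) ℂ,
      (∀ i, P i ∈ linS (r + 1) ^ (b - m)) →
      ((altC (fun i => (X i : MvPolynomial (Fin (r + 1)) ℂ)))^[m] F) P = 0) :
    ∀ P : Fin (r + 1) → MvPolynomial (Fin (r + 1)) ℂ, (∀ i, P i ∈ linS (r + 1) ^ b) →
      F P = 0 := by
  set xs : Fin (r + 1) → MvPolynomial (Fin (r + 1)) ℂ := fun i => X i with hxs
  have hDx : ∀ m k : Fin (r + 1), pderiv m (xs k) = if k = m then 1 else 0 := by
    intro m k
    by_cases hkm : k = m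
    · rw [hkm, if_pos rfl, hxs]
      exact pderiv_X_self _
    · rw [if_neg hkm, hxs]
      exact pderiv_X_of_ne hkm
  have hHW' : ∀ j : ℕ, j ≤ b →
      HWForm xs (fun i => pderiv i) (fun b => linS (r + 1) ^ b) (b - j)
        (fun i => (lam i : ℂ) - j) ((altC xs)^[j] F) := by
    intro j
    induction j with
    | zero =>
      intro _
      simpa using hHW
    | succ j ih =>
      intro hj
      have h1 := ih (by omega)
      have h2 : b - j = (b - (j + 1)) + 1 := by omega
      rw [h2] at h1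
      have h3 := hwForm_altC (x := xs) (D := fun i => pderiv i)
        (S := fun b => linS (r + 1) ^ b) hDx (fun b k P hP => mul_mem_linS _ _ hP) h1
      rw [Function.iterate_succ_apply']
      have h4 : (fun i : Fin (r + 1) => (lam i : ℂ) - ((j + 1 : ℕ) : ℂ)) =
          fun m => (fun i : Fin (r + 1) => (lam i : ℂ) - (j : ℂ)) m - 1 := by
        funext i
        push_cast
        ring
      rw [h4]
      exact h3
  have hsgn : ∀ j : ℕ, IsSgn j ((altC xs)^[j] F) := by
    intro j
    induction j with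
    | zero => exact IsSymm.isSgn hs
    | succ j ih =>
      rw [Function.iterate_succ_apply']
      exact ih.altC xs
  have hdown : ∀ j : ℕ, j ≤ m → ∀ P : Fin (r + 1) → MvPolynomial (Fin (r + 1)) ℂ,
      (∀ i, P i ∈ linS (r + 1) ^ (b - (m - j))) → ((altC xs)^[m - j] F) P = 0 := by
    intro j
    induction j with
    | zero =>
      intro _ P hP
      exact h0 P hP
    | succ j ih =>
      intro hj P hP
      set t := m - (j + 1) with ht
      have hr1 : m - j = t + 1 := by omega
      have hrb : b - t = (b - (t + 1)) + 1 := by omega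
      have ihj := ih (by omega)
      rw [hr1, Function.iterate_succ_apply'] at ihj
      have h1 := hHW' t (by omega)
      rw [hrb] at h1
      refine capelli (x := xs) (D := fun i => pderiv i)
        (S := fun b => linS (r + 1) ^ b) hDx (fun b k P hP => mul_mem_linS _ _ hP)
        (fun b m P hP => pderiv_mem_linS _ _ hP) h1 (hsgn t) ?_ ihj P (by rw [← hrb]; exact hP)
      intro k
      have h2 := hm k
      have h3 : t < lam k := by omega
      obtain ⟨d, hd⟩ : ∃ d, lam k = t + 1 + d := ⟨_, (Nat.add_sub_of_le h3).symm⟩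
      simp only [hd]
      have h5 : ((t + 1 + d : ℕ) : ℂ) - (t : ℂ) + ((r + 1 - 1 - (k : ℕ) : ℕ) : ℂ) =
          ((1 + d + (r + 1 - 1 - (k : ℕ)) : ℕ) : ℂ) := by
        rw [Nat.cast_add, Nat.cast_add t 1, Nat.cast_add, Nat.cast_add 1 d]
        push_cast
        ring
      rw [h5, Nat.cast_ne_zero]
      omega
  have hfin := hdown m le_rfl
  simpa using hfin

/-- The weights after `m` contractions. -/
theorem hwForm_iter {r b : ℕ} (lam : Fin (r + 1) → ℕ)
    (F : MultilinearMap ℂ (fun _ : Fin (r + 1) => MvPolynomial (Fin (r + 1)) ℂ) ℂ)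
    (hHW : HWForm (fun i => (X i : MvPolynomial (Fin (r + 1)) ℂ)) (fun i => pderiv i)
      (fun b => linS (r + 1) ^ b) b (fun i => (lam i : ℂ)) F) (m j : ℕ) (hm : b = j + m) :
    HWForm (fun i => (X i : MvPolynomial (Fin (r + 1)) ℂ)) (fun i => pderiv i)
      (fun b => linS (r + 1) ^ b) j (fun i => (lam i : ℂ) - m)
      ((altC (fun i => (X i : MvPolynomial (Fin (r + 1)) ℂ)))^[m] F) := by
  induction m generalizing j with
  | zero =>
    simp only [Nat.cast_zero, sub_zero, Function.iterate_zero, id]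
    rw [show j = b by omega]
    exact hHW
  | succ m ih =>
    have h1 := ih (j + 1) (by omega)
    have h3 := hwForm_altC (x := fun i => (X i : MvPolynomial (Fin (r + 1)) ℂ))
      (D := fun i => pderiv i) (S := fun b => linS (r + 1) ^ b) (by
        intro m k
        by_cases hkm : k = m
        · rw [hkm, if_pos rfl]
          exact pderiv_X_self _
        · rw [if_neg hkm]
          exact pderiv_X_of_ne hkm) (fun b k P hP => mul_mem_linS _ _ hP) h1
    rw [Function.iterate_succ_apply']
    have h4 : (fun i : Fin (r + 1) => (lam i : ℂ) - ((m + 1 : ℕ) : ℂ)) =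
        fun k => (fun i : Fin (r + 1) => (lam i : ℂ) - (m : ℂ)) k - 1 := by
      funext i
      push_cast
      ring
    rw [h4]
    exact h3

/-- The hybrid map kills no highest weight vector of a tall shape. -/
theorem vanish (hC : CStmt) (lam : Fin (c + 3) → ℕ)
    (hanti : ∀ i, lam (Fin.last (c + 2)) ≤ lam i) (h3 : 3 ≤ lam (Fin.last (c + 2)))
    (hle : lam (Fin.last (c + 2)) ≤ c + 3)
    (l : (Fin (c + 3) → Fin (c + 4) → (Fin (c + 3) → ℂ)) →₀ ℂ)
    (hx : elOf l ∈ hwSpace lam (plethAct (c + 3) (c + 4) (c + 3)))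
    (hF : ∀ y : Fin (c + 4) → Fin (c + 3) → MvPolynomial (Fin (c + 3)) ℂ,
      (∀ k s, y k s ∈ linS (c + 3)) → ∑ k, ∑ σ : Equiv.Perm (Fin (c + 3)),
        formOf l (fun p => y k (σ p) * ∏ s, y (k.succAbove p) s) = 0) :
    elOf l = 0 := by
  apply elOf_eq_zero
  set xs : Fin (c + 3) → MvPolynomial (Fin (c + 3)) ℂ := fun i => X i with hxs
  have hxL : ∀ i, xs i ∈ linS (c + 3) := fun i => X_mem_linS _
  have hHW : HWForm xs (fun i => pderiv i) (fun b => linS (c + 3) ^ b) (c + 4)
      (fun i => (lam i : ℂ)) (formOf l) := by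
    have h1 := hwForm_formOf (le_refl (c + 3)) lam l hx
    simpa using h1
  have hcol : Col (linS (c + 3)) c ((altC xs)^[3] (formOf l)) := by
    apply hC
    · have h1 : ∀ j : ℕ, IsSgn j ((altC xs)^[j] (formOf l)) := by
        intro j
        induction j with
        | zero => exact IsSymm.isSgn (formOf_symm l)
        | succ j ih =>
          rw [Function.iterate_succ_apply']
          exact ih.altC xs
      exact h1 3
    · intro w hw v hv0 hv
      exact H270.place (linS (c + 3)) (formOf l) xs hxL hF w hw v hv0 hv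
  obtain ⟨k, hk⟩ : ∃ k, lam (Fin.last (c + 2)) = k + 3 := ⟨_, (Nat.sub_add_cancel h3).symm⟩
  obtain ⟨j, hj⟩ : ∃ j, c = j + k := ⟨c - k, by omega⟩
  have hcol2 : Col (linS (c + 3)) j ((altC xs)^[k + 3] (formOf l)) := by
    rw [Function.iterate_add_apply]
    apply Col.altC_iter hxL
    rw [← hj]
    exact hcol
  apply descent lam (formOf l) (formOf_symm l) hHW (k + 3) (by omega)
    (fun i => by rw [← hk]; exact hanti i)
  have hb : c + 4 - (k + 3) = j + 1 := by omega
  rw [hb]
  apply end_zero (c := fun i => (lam i : ℂ) - ((k + 3 : ℕ) : ℂ)) _ _ hcol2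
  · exact hwForm_iter lam (formOf l) hHW (k + 3) (j + 1) (by omega)
  · rw [hk, sub_self]

end Vale.Agent.P181.H73
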