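import Vale.Agent.P181.H73.Pass

set_option autoImplicit false

/-!
# P181: the end of the argument

A highest weight form with the column property and last weight zero vanishes.
-/

namespace Vale.Agent.P181.H73

open Vale.Agent.P181 Vale.Agent.P181.H280 Finset MvPolynomial

section Dep

variable {A : Type*} [CommRing A] [Algebra ℂ A]

/-- Powers of linearly dependent vectors. -/
lemma Col.powers {a : ℕ} {L L' : Submodule ℂ A} (hL : L' ≤ L) {j : ℕ}
    {φ : MultilinearMap ℂ (fun _ : Fin a => A) ℂ} (h : Col L j φ) (u : Fin a → A)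
    (hu : ∀ i, u i ∈ L') (hdep : ¬ LinearIndependent ℂ u) :
    φ (fun i => u i ^ (j + 1)) = 0 := by
  classical
  rw [Fintype.linearIndependent_iff] at hdep
  push Not at hdep
  obtain ⟨g, hg, p, hp⟩ := hdep
  have hup : u p = ∑ k ∈ univ.erase p, (-(g k / g p)) • u k := by
    have h1 : g p • u p + ∑ k ∈ univ.erase p, g k • u k = 0 := by
      rw [Finset.add_sum_erase univ (fun k => g k • u k) (Finset.mem_univ p)]
      exact hg
    have h2 : u p = - ((g p)⁻¹ • ∑ k ∈ univ.erase p, g k • u k) := by
      rw [eq_neg_iff_add_eq_zero]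
      have h3 := congrArg (fun z => (g p)⁻¹ • z) h1
      simp only [smul_add, smul_smul, inv_mul_cancel₀ hp, one_smul, smul_zero] at h3
      exact h3
    rw [h2, Finset.smul_sum, ← Finset.sum_neg_distrib]
    apply Finset.sum_congr rfl
    intro k _
    rw [smul_smul, ← neg_smul]
    congr 1
    rw [div_eq_mul_inv, mul_comm]
  have hpow : ∀ i, u i ^ (j + 1) ∈ L ^ (j + 1) := fun i => Submodule.pow_mem_pow _ (hL (hu i)) _
  have h4 : (fun i => u i ^ (j + 1)) =
      Function.update (fun i => u i ^ (j + 1)) p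
        (∑ k ∈ univ.erase p, (-(g k / g p)) • (u k * u p ^ j)) := by
    funext i
    by_cases hi : i = p
    · subst hi
      rw [Function.update_self]
      have h5 : ∑ k ∈ univ.erase i, (-(g k / g i)) • (u k * u i ^ j) =
          (∑ k ∈ univ.erase i, (-(g k / g i)) • u k) * u i ^ j := by
        rw [Finset.sum_mul]
        apply Finset.sum_congr rfl
        intro k _
        rw [Algebra.smul_mul_assoc]
      rw [h5, ← hup, pow_succ']
    · rw [Function.update_of_ne hi]
  rw [h4, MultilinearMap.map_update_sum]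
  apply Finset.sum_eq_zero
  intro k hk
  have hkp : k ≠ p := Finset.ne_of_mem_erase hk
  rw [MultilinearMap.map_update_smul]
  have h6 : Function.update (fun i => u i ^ (j + 1)) p (u k * u p ^ j) =
      Function.update (Function.update (fun i => u i ^ (j + 1)) k (u k ^ (j + 1))) p
        (u k * u p ^ j) := by
    rw [Function.update_eq_self k (fun i => u i ^ (j + 1))]
  rw [h6, h k p hkp (u k) (hL (hu k)) (u p ^ j) (Submodule.pow_mem_pow _ (hL (hu p)) _) _ hpow,
    smul_zero]

/-- All products, when the space of linear forms has dimension less than the number of slots. -/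
lemma Col.small {a : ℕ} {L L' : Submodule ℂ A} (hL : L' ≤ L) {j : ℕ}
    {φ : MultilinearMap ℂ (fun _ : Fin a => A) ℂ} (h : Col L j φ)
    (hdim : ∀ u : Fin a → A, (∀ i, u i ∈ L') → ¬ LinearIndependent ℂ u) (P : Fin a → A)
    (hP : ∀ i, P i ∈ L' ^ (j + 1)) : φ P = 0 := by
  apply multilinear_zero_of_span φ ((fun ζ => ζ ^ (j + 1)) '' (L' : Set A)) _ P
    (fun i => pow_le_span_pow _ _ (hP i))
  intro w hw
  choose u hu huw using hw
  have h1 : w = fun i => u i ^ (j + 1) := by
    funext i
    exact (huw i).symm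
  rw [h1]
  exact h.powers hL u hu (hdim u hu)

end Dep

section Last

variable {r : ℕ}

/-- The linear forms in all variables but the last. -/
noncomputable def linT (r : ℕ) : Submodule ℂ (MvPolynomial (Fin (r + 1)) ℂ) :=
  Submodule.span ℂ (Set.range (fun i : Fin r => (X i.castSucc : MvPolynomial (Fin (r + 1)) ℂ)))

lemma linT_le : linT r ≤ linS (r + 1) := by
  rw [linT, Submodule.span_le]
  rintro _ ⟨i, rfl⟩
  exact X_mem_linS _

lemma not_indep (u : Fin (r + 1) → MvPolynomial (Fin (r + 1)) ℂ) (hu : ∀ i, u i ∈ linT r) :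
    ¬ LinearIndependent ℂ u := by
  intro h
  let v : Fin (r + 1) → linT r := fun i => ⟨u i, hu i⟩
  have hv : LinearIndependent ℂ v := by
    apply LinearIndependent.of_comp (linT r).subtype
    exact h
  have : FiniteDimensional ℂ (linT r) := by
    rw [linT]
    exact FiniteDimensional.span_of_finite ℂ (Set.finite_range _)
  have h1 := hv.fintype_card_le_finrank
  have h2 : Module.finrank ℂ (linT r) ≤ r := by
    have h3 := finrank_range_le_card (R := ℂ)
      (b := fun i : Fin r => (X i.castSucc : MvPolynomial (Fin (r + 1)) ℂ))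
    rw [Fintype.card_fin] at h3
    exact h3
  rw [Fintype.card_fin] at h1
  omega

/-- A product of variables is an eigenvector of `X_last ∂_last`. -/
lemma euler_last {b : ℕ} (c : Fin b → Fin (r + 1)) :
    (X (Fin.last r) : MvPolynomial (Fin (r + 1)) ℂ) * pderiv (Fin.last r) (∏ s, X (c s)) =
      (((univ.filter fun s => c s = Fin.last r).card : ℕ) : ℂ) • ∏ s, X (c s) := by
  classical
  rw [deriv_prod, Finset.mul_sum]
  have h1 : ∀ s : Fin b, (X (Fin.last r) : MvPolynomial (Fin (r + 1)) ℂ) *
      ∏ t, Function.update (fun t => (X (c t) : MvPolynomial (Fin (r + 1)) ℂ)) s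
        (pderiv (Fin.last r) (X (c s))) t =
      if c s = Fin.last r then ∏ t, X (c t) else 0 := by
    intro s
    rw [Finset.prod_update_of_mem (Finset.mem_univ s)]
    split_ifs with hs
    · rw [hs, pderiv_X_self, one_mul, ← hs]
      exact Finset.mul_prod_erase univ (fun t => (X (c t) : MvPolynomial (Fin (r + 1)) ℂ))
        (Finset.mem_univ s) |>.symm ▸ by rw [Finset.sdiff_singleton_eq_erase]
    · rw [pderiv_X_of_ne hs, zero_mul, mul_zero]
  rw [Finset.sum_congr rfl (fun s _ => h1 s), ← Finset.sum_filter, Finset.sum_const,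
    ← Nat.cast_smul_eq_nsmul ℂ]

/-- **End of the argument**: a highest weight form whose last weight is zero and which has the
column property vanishes. -/
theorem end_zero {j : ℕ} {c : Fin (r + 1) → ℂ}
    {φ : MultilinearMap ℂ (fun _ : Fin (r + 1) => MvPolynomial (Fin (r + 1)) ℂ) ℂ}
    (hHW : HWForm (fun i => (X i : MvPolynomial (Fin (r + 1)) ℂ)) (fun i => pderiv i)
      (fun b => linS (r + 1) ^ b) (j + 1) c φ)
    (hc : c (Fin.last r) = 0) (hcol : Col (linS (r + 1)) j φ)
    (P : Fin (r + 1) → MvPolynomial (Fin (r + 1)) ℂ) (hP : ∀ i, P i ∈ linS (r + 1) ^ (j + 1)) :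
    φ P = 0 := by
  classical
  apply multilinear_zero_of_span φ
    (Set.range (fun c : Fin (j + 1) → Fin (r + 1) =>
      ∏ s, (X (c s) : MvPolynomial (Fin (r + 1)) ℂ))) _ P
  · intro i
    exact span_pow_eq _ _ (hP i)
  intro w hw
  choose d hd using hw
  have hw' : w = fun i => ∏ s, (X (d i s) : MvPolynomial (Fin (r + 1)) ℂ) := by
    funext i
    exact (hd i).symm
  have hwS : ∀ i, w i ∈ linS (r + 1) ^ (j + 1) := by
    intro i
    rw [hw']
    exact prod_mem_pow _ _ (fun s => X_mem_linS _)
  let N : Fin (r + 1) → ℕ := fun i => (univ.filter fun s => d i s = Fin.last r).card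
  have h1 := hHW (Fin.last r) (Fin.last r) le_rfl w hwS
  rw [if_pos rfl, hc, zero_mul] at h1
  have h2 : ∀ i, φ (Function.update w i
      ((X (Fin.last r) : MvPolynomial (Fin (r + 1)) ℂ) * pderiv (Fin.last r) (w i))) =
      (N i : ℂ) * φ w := by
    intro i
    have h3 : w i = ∏ s, (X (d i s) : MvPolynomial (Fin (r + 1)) ℂ) := by rw [hw']
    rw [h3, euler_last, ← h3, MultilinearMap.map_update_smul, Function.update_eq_self,
      smul_eq_mul]
  rw [Finset.sum_congr rfl (fun i _ => h2 i), ← Finset.sum_mul, ← Nat.cast_sum] at h1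
  by_cases hN : ∑ i, N i = 0
  · -- no last variable
    rw [Finset.sum_eq_zero_iff] at hN
    apply hcol.small linT_le not_indep
    intro i
    rw [hw']
    apply prod_mem_pow
    intro s
    have h3 := hN i (Finset.mem_univ i)
    simp only [N] at h3
    rw [Finset.card_eq_zero, Finset.filter_eq_empty_iff] at h3
    have h4 := h3 (Finset.mem_univ s)
    obtain ⟨k, hk⟩ := Fin.exists_castSucc_eq.2 h4
    rw [← hk]
    exact Submodule.subset_span ⟨k, rfl⟩
  · exact (mul_eq_zero.1 h1).resolve_left (Nat.cast_ne_zero.2 hN)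

end Last

end Vale.Agent.P181.H73
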