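import Vale.Agent.P181.H73.Asm

set_option autoImplicit false

/-!
# P181: end of the argument for symmetrised products
-/

open scoped TensorProduct

namespace Vale.Agent.P181.H73

open Vale.Agent.P181 Vale.Agent.P181.H280 Finset MvPolynomial

lemma multilinear_zero_of_spans {κ : Type*} [Fintype κ] {M N : Type*} [AddCommGroup M]
    [Module ℂ M] [AddCommGroup N] [Module ℂ N] (Φ : MultilinearMap ℂ (fun _ : κ => M) N)
    (S : κ → Set M) (h : ∀ w : κ → M, (∀ i, w i ∈ S i) → Φ w = 0) (w : κ → M)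
    (hw : ∀ i, w i ∈ Submodule.span ℂ (S i)) : Φ w = 0 := by
  classical
  have h1 : ∀ i, ∃ l : S i →₀ ℂ,
      Finsupp.linearCombination ℂ (Subtype.val : S i → M) l = w i := by
    intro i
    rw [← Finsupp.mem_span_iff_linearCombination]
    exact hw i
  choose l hl using h1
  have h2 : w = fun i => ∑ r ∈ (l i).support, (l i r) • (r : M) := by
    funext i
    rw [← hl i, Finsupp.linearCombination_apply, Finsupp.sum]
  have h3 : ∀ r : (i : κ) → S i, Φ (fun i => (l i (r i)) • ((r i : S i) : M)) = 0 := by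
    intro r
    rw [MultilinearMap.map_smul_univ, h _ (fun i => (r i).2), smul_zero]
  rw [h2, MultilinearMap.map_sum_finset]
  apply Finset.sum_eq_zero
  intro r _
  exact h3 r

section Last

variable {r : ℕ}

/-- A highest weight form with last weight zero kills the monomials with the last variable. -/
lemma mono_kill {j : ℕ} {c : Fin (r + 1) → ℂ}
    {φ : MultilinearMap ℂ (fun _ : Fin (r + 1) => MvPolynomial (Fin (r + 1)) ℂ) ℂ}
    (hHW : HWForm (fun i => (X i : MvPolynomial (Fin (r + 1)) ℂ)) (fun i => pderiv i)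
      (fun b => linS (r + 1) ^ b) j c φ)
    (hc : c (Fin.last r) = 0) (d : Fin (r + 1) → Fin j → Fin (r + 1)) (i0 : Fin (r + 1))
    (s0 : Fin j) (h0 : d i0 s0 = Fin.last r) :
    φ (fun i => ∏ s, (X (d i s) : MvPolynomial (Fin (r + 1)) ℂ)) = 0 := by
  classical
  set w : Fin (r + 1) → MvPolynomial (Fin (r + 1)) ℂ := fun i => ∏ s, X (d i s) with hw'
  have hwS : ∀ i, w i ∈ linS (r + 1) ^ j := by
    intro i
    rw [hw']
    exact prod_mem_pow _ _ (fun s => X_mem_linS _)
  let N : Fin (r + 1) → ℕ := fun i => (univ.filter fun s => d i s = Fin.last r).card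
  have h1 := hHW (Fin.last r) (Fin.last r) le_rfl w hwS
  rw [if_pos rfl, hc, zero_mul] at h1
  have h2 : ∀ i, φ (Function.update w i
      ((X (Fin.last r) : MvPolynomial (Fin (r + 1)) ℂ) * pderiv (Fin.last r) (w i))) =
      (N i : ℂ) * φ w := by
    intro i
    have h3 : w i = ∏ s, (X (d i s) : MvPolynomial (Fin (r + 1)) ℂ) := by rw [hw']
    rw [h3, euler_last, ← h3, MultilinearMap.map_update_smul, Function.update_eq_self,
      smul_eq_mul]
  rw [Finset.sum_congr rfl (fun i _ => h2 i), ← Finset.sum_mul, ← Nat.cast_sum] at h1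
  refine (mul_eq_zero.1 h1).resolve_left (Nat.cast_ne_zero.2 ?_)
  intro hN
  rw [Finset.sum_eq_zero_iff] at hN
  have h3 := hN i0 (Finset.mem_univ i0)
  simp only [N] at h3
  rw [Finset.card_eq_zero, Finset.filter_eq_empty_iff] at h3
  exact h3 (Finset.mem_univ s0) h0

/-- A highest weight form with last weight zero kills everything divisible by the last
variable. -/
lemma last_kill {j : ℕ} {c : Fin (r + 1) → ℂ}
    {φ : MultilinearMap ℂ (fun _ : Fin (r + 1) => MvPolynomial (Fin (r + 1)) ℂ) ℂ}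
    (hHW : HWForm (fun i => (X i : MvPolynomial (Fin (r + 1)) ℂ)) (fun i => pderiv i)
      (fun b => linS (r + 1) ^ b) (j + 1) c φ)
    (hc : c (Fin.last r) = 0) (P : Fin (r + 1) → MvPolynomial (Fin (r + 1)) ℂ)
    (hP : ∀ i, P i ∈ linS (r + 1) ^ (j + 1)) (i0 : Fin (r + 1))
    (R : MvPolynomial (Fin (r + 1)) ℂ) (hR : R ∈ linS (r + 1) ^ j)
    (hPR : P i0 = X (Fin.last r) * R) : φ P = 0 := by
  classical
  apply multilinear_zero_of_spans φ (fun i => if i = i0 then
      (fun z => (X (Fin.last r) : MvPolynomial (Fin (r + 1)) ℂ) * z) ''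
        (Set.range (fun c : Fin j → Fin (r + 1) =>
          ∏ s, (X (c s) : MvPolynomial (Fin (r + 1)) ℂ)))
    else Set.range (fun c : Fin (j + 1) → Fin (r + 1) =>
      ∏ s, (X (c s) : MvPolynomial (Fin (r + 1)) ℂ)))
  · intro w hw
    have hd : ∀ i, ∃ d : Fin (j + 1) → Fin (r + 1),
        w i = ∏ s, (X (d s) : MvPolynomial (Fin (r + 1)) ℂ) ∧ (i = i0 → d 0 = Fin.last r) := by
      intro i
      have hi := hw i
      by_cases h : i = i0
      · rw [if_pos h] at hi
        obtain ⟨_, ⟨c, rfl⟩, hc⟩ := hi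
        refine ⟨Fin.cons (Fin.last r) c, ?_, fun _ => rfl⟩
        rw [Fin.prod_univ_succ, ← hc]
        rfl
      · rw [if_neg h] at hi
        obtain ⟨c, hc⟩ := hi
        exact ⟨c, hc.symm, fun h1 => absurd h1 h⟩
    choose d hd1 hd2 using hd
    have h1 : w = fun i => ∏ s, (X (d i s) : MvPolynomial (Fin (r + 1)) ℂ) := funext hd1
    rw [h1]
    exact mono_kill hHW hc d i0 0 (hd2 i0 rfl)
  · intro i
    by_cases h : i = i0
    · rw [if_pos h, h, hPR]
      have h1 := span_pow_eq (fun i : Fin (r + 1) =>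
        (X i : MvPolynomial (Fin (r + 1)) ℂ)) j hR
      have h2 : (LinearMap.mulLeft ℂ (X (Fin.last r) : MvPolynomial (Fin (r + 1)) ℂ)) R ∈
          (Submodule.span ℂ (Set.range (fun c : Fin j → Fin (r + 1) =>
          ∏ s, (X (c s) : MvPolynomial (Fin (r + 1)) ℂ)))).map
            (LinearMap.mulLeft ℂ (X (Fin.last r) : MvPolynomial (Fin (r + 1)) ℂ)) :=
        Submodule.mem_map_of_mem h1
      rw [Submodule.map_span] at h2
      exact h2
    · rw [if_neg h]
      exact span_pow_eq _ _ (hP i)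

/-- **End of the argument**, general form: a form with the column property which dies when a slot
is divisible by the last variable vanishes. -/
theorem end_zero' {j : ℕ}
    {ψ : MultilinearMap ℂ (fun _ : Fin (r + 1) => MvPolynomial (Fin (r + 1)) ℂ) ℂ}
    (hlast : ∀ P : Fin (r + 1) → MvPolynomial (Fin (r + 1)) ℂ,
      (∀ i, P i ∈ linS (r + 1) ^ (j + 1)) → ∀ (i : Fin (r + 1)) (R : MvPolynomial (Fin (r + 1)) ℂ),
        R ∈ linS (r + 1) ^ j → P i = X (Fin.last r) * R → ψ P = 0)
    (hcol : Col (linS (r + 1)) j ψ)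
    (P : Fin (r + 1) → MvPolynomial (Fin (r + 1)) ℂ) (hP : ∀ i, P i ∈ linS (r + 1) ^ (j + 1)) :
    ψ P = 0 := by
  classical
  apply multilinear_zero_of_span ψ
    (Set.range (fun c : Fin (j + 1) → Fin (r + 1) =>
      ∏ s, (X (c s) : MvPolynomial (Fin (r + 1)) ℂ))) _ P
  · intro i
    exact span_pow_eq _ _ (hP i)
  intro w hw
  choose d hd using hw
  have hw' : w = fun i => ∏ s, (X (d i s) : MvPolynomial (Fin (r + 1)) ℂ) := by
    funext i
    exact (hd i).symm
  have hwS : ∀ i, w i ∈ linS (r + 1) ^ (j + 1) := by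
    intro i
    rw [hw']
    exact prod_mem_pow _ _ (fun s => X_mem_linS _)
  by_cases hN : ∃ i s, d i s = Fin.last r
  · obtain ⟨i, s, hs⟩ := hN
    refine hlast w hwS i (∏ t, X (d i (s.succAbove t))) ?_ ?_
    · exact prod_mem_pow _ _ (fun s => X_mem_linS _)
    · rw [hw']
      show ∏ s, (X (d i s) : MvPolynomial (Fin (r + 1)) ℂ) = _
      rw [Fin.prod_univ_succAbove _ s, hs]
  · push Not at hN
    apply hcol.small linT_le not_indep
    intro i
    rw [hw']
    apply prod_mem_pow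
    intro s
    obtain ⟨k, hk⟩ := Fin.exists_castSucc_eq.2 (hN i s)
    rw [← hk]
    exact Submodule.subset_span ⟨k, rfl⟩

end Last

section Perm

variable {A : Type*} [CommRing A] [Algebra ℂ A]

/-- `P ↦ ∑_π sgn(π)^κ F(P_{π 1} Q_1, …, P_{π a} Q_a)`. -/
noncomputable def permP {a : ℕ} (κ : ℕ) (Q : Fin a → A)
    (F : MultilinearMap ℂ (fun _ : Fin a => A) ℂ) : MultilinearMap ℂ (fun _ : Fin a => A) ℂ :=
  ∑ π : Equiv.Perm (Fin a), (((Equiv.Perm.sign π : ℤ) : ℂ) ^ κ) • (mulArg F Q).domDomCongr π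

lemma permP_apply {a : ℕ} (κ : ℕ) (Q : Fin a → A)
    (F : MultilinearMap ℂ (fun _ : Fin a => A) ℂ) (P : Fin a → A) :
    permP κ Q F P = ∑ π : Equiv.Perm (Fin a), (((Equiv.Perm.sign π : ℤ) : ℂ) ^ κ) *
      F (fun i => P (π i) * Q i) := by
  simp only [permP, _root_.sum_apply, smul_apply, smul_eq_mul]
  apply Finset.sum_congr rfl
  intro π _
  congr 1
  show F (fun i => Q i * P (π i)) = _
  congr 1
  funext i
  rw [mul_comm]

lemma altC_permP {a : ℕ} (x : Fin a → A) (κ : ℕ) (Q : Fin a → A)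
    (F : MultilinearMap ℂ (fun _ : Fin a => A) ℂ) :
    altC x (permP κ Q F) = permP (κ + 1) Q (altC x F) := by
  ext P
  rw [altC_apply, permP_apply]
  simp only [permP_apply, altC_apply, Finset.mul_sum]
  rw [Finset.sum_comm]
  apply Finset.sum_congr rfl
  intro π _
  rw [← Equiv.sum_comp (Equiv.mulRight π⁻¹)]
  apply Finset.sum_congr rfl
  intro τ _
  have h1 : (Equiv.mulRight π⁻¹) τ = τ * π⁻¹ := rfl
  rw [h1]
  have h2 : ((Equiv.Perm.sign (τ * π⁻¹) : ℤ) : ℂ) =
      ((Equiv.Perm.sign τ : ℤ) : ℂ) * ((Equiv.Perm.sign π : ℤ) : ℂ) := by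
    rw [Equiv.Perm.sign_mul, Equiv.Perm.sign_inv]
    push_cast
    rfl
  have h3 : (fun i => x ((τ * π⁻¹) (π i)) * P (π i) * Q i) =
      fun i => x (τ i) * (P (π i) * Q i) := by
    funext i
    have h4 : (τ * π⁻¹) (π i) = τ i := congrArg τ (Equiv.symm_apply_apply π i)
    rw [h4]
    ring
  rw [h2, h3, pow_succ]
  ring

lemma altC_iter_permP {a : ℕ} (x : Fin a → A) (Q : Fin a → A) (e : ℕ) :
    ∀ (κ : ℕ) (F : MultilinearMap ℂ (fun _ : Fin a => A) ℂ),
    (altC x)^[e] (permP κ Q F) = permP (κ + e) Q ((altC x)^[e] F) := by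
  induction e with
  | zero => intro κ F; rfl
  | succ e ih =>
    intro κ F
    rw [Function.iterate_succ_apply, altC_permP, ih, Function.iterate_succ_apply,
      show κ + 1 + e = κ + (e + 1) by omega]

lemma permP_const {a κ : ℕ} (hκ : Even κ) (Q : Fin a → A)
    (F : MultilinearMap ℂ (fun _ : Fin a => A) ℂ) (Y : A) :
    permP κ Q F (fun _ => Y) = (Fintype.card (Equiv.Perm (Fin a)) : ℂ) * F (fun i => Y * Q i) := by
  obtain ⟨k, hk⟩ := hκ
  rw [permP_apply]
  have h1 : ∀ π : Equiv.Perm (Fin a), (((Equiv.Perm.sign π : ℤ) : ℂ) ^ κ) = 1 := by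
    intro π
    rw [hk, ← two_mul, pow_mul, pow_two, sign_sq, one_pow]
  simp only [h1, one_mul, Finset.sum_const, Finset.card_univ, nsmul_eq_mul]

end Perm

/-- **Block [E]**: the end of the argument for a symmetric highest weight form `F` of degree
`b = t + (d + 1) + D`, when the symmetrised products of `altC^t F` have the column property in the
factors of degree `d + 1`. -/
theorem endE {r b : ℕ} (lam : Fin (r + 1) → ℕ)
    (F : MultilinearMap ℂ (fun _ : Fin (r + 1) => MvPolynomial (Fin (r + 1)) ℂ) ℂ)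
    (hs : IsSymm F)
    (hHW : HWForm (fun i => (X i : MvPolynomial (Fin (r + 1)) ℂ)) (fun i => pderiv i)
      (fun b => linS (r + 1) ^ b) b (fun i => (lam i : ℂ)) F)
    (t e d D : ℕ) (hb : b = t + (d + 1) + D) (he : Even e) (hed : e ≤ d) (hD : r ≤ D)
    (hm : lam (Fin.last r) = t + e) (hanti : ∀ i, lam (Fin.last r) ≤ lam i)
    (h3 : ∀ Q : Fin (r + 1) → MvPolynomial (Fin (r + 1)) ℂ, (∀ i, Q i ∈ linS (r + 1) ^ D) →
      Col (linS (r + 1)) d (permP 0 Q
        ((altC (fun i => (X i : MvPolynomial (Fin (r + 1)) ℂ)))^[t] F))) :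
    ∀ P : Fin (r + 1) → MvPolynomial (Fin (r + 1)) ℂ, (∀ i, P i ∈ linS (r + 1) ^ b) →
      F P = 0 := by
  set xs : Fin (r + 1) → MvPolynomial (Fin (r + 1)) ℂ := fun i => X i with hxs
  have hxL : ∀ i, xs i ∈ linS (r + 1) := fun i => X_mem_linS _
  apply descent lam F hs hHW (e + t) (by omega) (fun i => by
    have := hanti i
    omega)
  intro P hP
  refine peel (linS (r + 1)) (d + 1 - e) (b - (e + t)) _ (by omega) (by omega) ?_ P hP
  intro ξ hξ Q hQ
  have hQ' : ∀ i, Q i ∈ linS (r + 1) ^ D := by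
    intro i
    have h1 : b - (e + t) - (d + 1 - e) = D := by omega
    rw [← h1]
    exact hQ i
  set Y := ∏ s, ξ s with hY
  have hYm : Y ∈ linS (r + 1) ^ (d + 1 - e) := prod_mem_pow _ _ hξ
  obtain ⟨d', hd'⟩ : ∃ d', d = d' + e := ⟨d - e, by omega⟩
  have hde : d + 1 - e = d' + 1 := by omega
  -- the column property after all contractions
  have hcol : Col (linS (r + 1)) d' (permP e Q ((altC xs)^[e + t] F)) := by
    have h1 := h3 Q hQ'
    rw [hd'] at h1
    have h2 := Col.altC_iter hxL e d' _ h1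
    rw [altC_iter_permP, zero_add, ← Function.iterate_add_apply] at h2
    exact h2
  have hHW2 : HWForm (fun i => (X i : MvPolynomial (Fin (r + 1)) ℂ)) (fun i => pderiv i)
      (fun b => linS (r + 1) ^ b) (d' + D + 1) (fun i => (lam i : ℂ) - ((e + t : ℕ) : ℂ))
      ((altC xs)^[e + t] F) :=
    hwForm_iter lam F hHW (e + t) (d' + D + 1) (by omega)
  have hc : (lam (Fin.last r) : ℂ) - ((e + t : ℕ) : ℂ) = 0 := by
    rw [hm, add_comm e t, sub_self]
  have hzero : permP e Q ((altC xs)^[e + t] F) (fun _ => Y) = 0 := by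
    refine end_zero' ?_ hcol _ (fun i => by rw [← hde]; exact hYm)
    intro P' hP' i R hR hPR
    rw [permP_apply]
    apply Finset.sum_eq_zero
    intro π _
    have hall : ∀ k, P' (π k) * Q k ∈ linS (r + 1) ^ (d' + D + 1) := by
      intro k
      rw [show d' + D + 1 = (d' + 1) + D by omega, pow_add]
      exact Submodule.mul_mem_mul (hP' _) (hQ' _)
    rw [last_kill hHW2 hc (fun k => P' (π k) * Q k) hall (π.symm i) (R * Q (π.symm i)) (by
      rw [pow_add]
      exact Submodule.mul_mem_mul hR (hQ' _)) (by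
      show P' (π (π.symm i)) * Q (π.symm i) = _
      rw [Equiv.apply_symm_apply, hPR, mul_assoc]), mul_zero]
  rw [permP_const he] at hzero
  refine (mul_eq_zero.1 hzero).resolve_left ?_
  exact_mod_cast Fintype.card_ne_zero

end Vale.Agent.P181.H73
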