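import Vale.Agent.P181.H73.End2
import Vale.Agent.P181.H270.Exch4
import Vale.Agent.P181.H394.PLem

set_option autoImplicit false

/-!
# P181: end of the argument from the column property of `altC^t F`
-/

open scoped TensorProduct

namespace Vale.Agent.P181.H73

open Vale.Agent.P181 Vale.Agent.P181.H280 Finset MvPolynomial

/-- The end of the argument when `altC^t F` has the column property. -/
theorem endC {r b : ℕ} (lam : Fin (r + 1) → ℕ)
    (F : MultilinearMap ℂ (fun _ : Fin (r + 1) => MvPolynomial (Fin (r + 1)) ℂ) ℂ)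
    (hs : IsSymm F)
    (hHW : HWForm (fun i => (X i : MvPolynomial (Fin (r + 1)) ℂ)) (fun i => pderiv i)
      (fun b => linS (r + 1) ^ b) b (fun i => (lam i : ℂ)) F)
    (t e d : ℕ) (hb : b = t + (d + 1)) (hed : e ≤ d)
    (hm : lam (Fin.last r) = t + e) (hanti : ∀ i, lam (Fin.last r) ≤ lam i)
    (h3 : Col (linS (r + 1)) d
      ((altC (fun i => (X i : MvPolynomial (Fin (r + 1)) ℂ)))^[t] F)) :
    ∀ P : Fin (r + 1) → MvPolynomial (Fin (r + 1)) ℂ, (∀ i, P i ∈ linS (r + 1) ^ b) →
      F P = 0 := by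
  set xs : Fin (r + 1) → MvPolynomial (Fin (r + 1)) ℂ := fun i => X i with hxs
  have hxL : ∀ i, xs i ∈ linS (r + 1) := fun i => X_mem_linS _
  obtain ⟨j, rfl⟩ : ∃ j, d = j + e := ⟨d - e, by omega⟩
  have hcol2 : Col (linS (r + 1)) j ((altC xs)^[e + t] F) := by
    rw [Function.iterate_add_apply]
    exact Col.altC_iter hxL e j _ h3
  apply descent lam F hs hHW (e + t) (by omega) (fun i => by
    have := hanti i
    omega)
  have hb' : b - (e + t) = j + 1 := by omega
  rw [hb']
  apply end_zero (c := fun i => (lam i : ℂ) - ((e + t : ℕ) : ℂ)) _ _ hcol2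
  · exact hwForm_iter lam F hHW (e + t) (j + 1) (by omega)
  · rw [hm, add_comm e t, sub_self]

end Vale.Agent.P181.H73
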