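import Vale.Agent.P181.H280.Main

set_option autoImplicit false

/-!
# P181: the column property `φ(u^(j+1), u v, rest) = 0` passes through the contraction

The property `Col` of an `a`-linear form is inherited by its contraction with an alternating
product, with the degree lowered by one.
-/

namespace Vale.Agent.P181.H73

open Vale.Agent.P181 Vale.Agent.P181.H280 Finset

variable {A : Type*} [CommRing A] [Algebra ℂ A]

/-- The property `φ(u^(j+1), u v, rest) = 0`, in all positions. -/
def Col {a : ℕ} (L : Submodule ℂ A) (j : ℕ)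
    (φ : MultilinearMap ℂ (fun _ : Fin a => A) ℂ) : Prop :=
  ∀ p q : Fin a, p ≠ q → ∀ u ∈ L, ∀ v ∈ L ^ j, ∀ P : Fin a → A, (∀ i, P i ∈ L ^ (j + 1)) →
    φ (Function.update (Function.update P p (u ^ (j + 1))) q (u * v)) = 0

/-- The first-order term of a bilinear identity along a line. -/
lemma bil_pol (B : A →ₗ[ℂ] A →ₗ[ℂ] ℂ) (u x w : A) (N : ℕ)
    (h : ∀ t : ℂ, B ((u + t • x) ^ (N + 1)) ((u + t • x) * w) = 0) :
    ((N + 1 : ℕ) : ℂ) * B (x * u ^ N) (u * w) + B (u ^ (N + 1)) (x * w) = 0 := by
  classical
  let α : ℕ → A := fun m => x ^ m * u ^ (N + 1 - m) * ((N + 1).choose m : A)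
  let p : Polynomial ℂ := ∑ m ∈ range (N + 2),
    (Polynomial.C (B (α m) (u * w)) * Polynomial.X ^ m +
      Polynomial.C (B (α m) (x * w)) * Polynomial.X ^ (m + 1))
  have hp : p = 0 := by
    apply Polynomial.funext
    intro t
    rw [Polynomial.eval_zero, ← h t]
    have h1 : (u + t • x) ^ (N + 1) = ∑ m ∈ range (N + 2), (t ^ m) • α m := by
      rw [add_comm u, add_pow]
      apply Finset.sum_congr rfl
      intro m _
      rw [smul_pow, Algebra.smul_mul_assoc, Algebra.smul_mul_assoc]
    rw [h1, map_sum, LinearMap.sum_apply]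
    simp only [p, Polynomial.eval_finsetSum, Polynomial.eval_add, Polynomial.eval_mul,
      Polynomial.eval_C, Polynomial.eval_pow, Polynomial.eval_X]
    apply Finset.sum_congr rfl
    intro m _
    rw [map_smul, LinearMap.smul_apply, add_mul, Algebra.smul_mul_assoc, map_add, map_smul,
      smul_eq_mul, smul_eq_mul, pow_succ]
    ring
  have h2 := congrArg (fun q => q.coeff 1) hp
  simp only [p, Polynomial.finsetSum_coeff, Polynomial.coeff_add, Polynomial.coeff_C_mul,
    Polynomial.coeff_X_pow, Polynomial.coeff_zero, mul_ite, mul_one, mul_zero] at h2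
  rw [Finset.sum_add_distrib] at h2
  have h3 : ∑ m ∈ range (N + 2), (if 1 = m then B (α m) (u * w) else 0) =
      B (α 1) (u * w) := by
    rw [Finset.sum_ite_eq, if_pos (by rw [Finset.mem_range]; omega)]
  have h4 : ∑ m ∈ range (N + 2), (if 1 = m + 1 then B (α m) (x * w) else 0) =
      B (α 0) (x * w) := by
    rw [Finset.sum_eq_single 0]
    · rw [if_pos rfl]
    · intro m _ hm
      rw [if_neg]
      omega
    · intro h5
      exact absurd (Finset.mem_range.2 (by omega)) h5
  rw [h3, h4] at h2
  have h5 : α 1 = ((N + 1 : ℕ) : ℂ) • (x * u ^ N) := by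
    simp only [α, pow_one, Nat.add_sub_cancel, Nat.choose_one_right]
    rw [Algebra.smul_def, map_natCast]
    ring
  have h6 : α 0 = u ^ (N + 1) := by
    simp only [α, pow_zero, one_mul, Nat.sub_zero, Nat.choose_zero_right, Nat.cast_one, mul_one]
  rw [h5, h6, map_smul, LinearMap.smul_apply, smul_eq_mul] at h2
  exact h2

/-- The form in two slots. -/
noncomputable def bil {a : ℕ} (φ : MultilinearMap ℂ (fun _ : Fin a => A) ℂ) (P : Fin a → A)
    (p q : Fin a) (hpq : p ≠ q) : A →ₗ[ℂ] A →ₗ[ℂ] ℂ :=
  LinearMap.mk₂ ℂ (fun x y => φ (Function.update (Function.update P p x) q y))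
    (by
      intro x x' y
      rw [Function.update_comm hpq, Function.update_comm hpq, Function.update_comm hpq,
        φ.map_update_add])
    (by
      intro c x y
      rw [Function.update_comm hpq, Function.update_comm hpq, φ.map_update_smul])
    (by
      intro x y y'
      rw [φ.map_update_add])
    (by
      intro c x y
      rw [φ.map_update_smul])

lemma bil_apply {a : ℕ} (φ : MultilinearMap ℂ (fun _ : Fin a => A) ℂ) (P : Fin a → A)
    (p q : Fin a) (hpq : p ≠ q) (x y : A) :
    bil φ P p q hpq x y = φ (Function.update (Function.update P p x) q y) := rfl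

lemma Col.pol {a : ℕ} {L : Submodule ℂ A} {j : ℕ}
    {φ : MultilinearMap ℂ (fun _ : Fin a => A) ℂ} (h : Col L j φ) {p q : Fin a} (hpq : p ≠ q)
    {u x w : A} (hu : u ∈ L) (hx : x ∈ L) (hw : w ∈ L ^ j) (P : Fin a → A)
    (hP : ∀ i, P i ∈ L ^ (j + 1)) :
    ((j + 1 : ℕ) : ℂ) * φ (Function.update (Function.update P p (x * u ^ j)) q (u * w)) +
      φ (Function.update (Function.update P p (u ^ (j + 1))) q (x * w)) = 0 := by
  have h1 := bil_pol (bil φ P p q hpq) u x w j (by
    intro t
    rw [bil_apply]
    exact h p q hpq (u + t • x) (L.add_mem hu (L.smul_mem t hx)) w hw P hP)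
  exact h1

/-- **The column property passes through the contraction.** -/
theorem Col.altC {a : ℕ} {L : Submodule ℂ A} {j : ℕ}
    {φ : MultilinearMap ℂ (fun _ : Fin a => A) ℂ} (h : Col L (j + 1) φ) {x : Fin a → A}
    (hx : ∀ i, x i ∈ L) : Col L j (altC x φ) := by
  classical
  intro p q hpq u hu v hv P hP
  rw [altC_apply]
  have hmul : ∀ (k : Fin a) (m : ℕ) (y : A), y ∈ L ^ m → x k * y ∈ L ^ (m + 1) := by
    intro k m y hy
    rw [pow_succ']
    exact Submodule.mul_mem_mul (hx k) hy
  let R : Equiv.Perm (Fin a) → Fin a → A := fun σ i => x (σ i) * P i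
  have hR : ∀ σ i, R σ i ∈ L ^ (j + 2) := fun σ i => hmul _ _ _ (hP i)
  have h1 : ∀ σ : Equiv.Perm (Fin a), (fun i => x (σ i) *
      Function.update (Function.update P p (u ^ (j + 1))) q (u * v) i) =
      Function.update (Function.update (R σ) p (x (σ p) * u ^ (j + 1))) q
        (u * (x (σ q) * v)) := by
    intro σ
    funext i
    by_cases hiq : i = q
    · subst hiq
      rw [Function.update_self, Function.update_self]
      ring
    · rw [Function.update_of_ne hiq, Function.update_of_ne hiq]
      by_cases hip : i = p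
      · subst hip
        rw [Function.update_self, Function.update_self]
      · rw [Function.update_of_ne hip, Function.update_of_ne hip]
  have h2 : ∀ σ : Equiv.Perm (Fin a), ((j + 2 : ℕ) : ℂ) *
      φ (Function.update (Function.update (R σ) p (x (σ p) * u ^ (j + 1))) q
        (u * (x (σ q) * v))) =
      - φ (Function.update (Function.update (R σ) p (u ^ (j + 2))) q
        (x (σ p) * (x (σ q) * v))) := by
    intro σ
    rw [eq_neg_iff_add_eq_zero]
    exact h.pol hpq hu (hx _) (hmul _ _ _ hv) (R σ) (hR σ)
  have h3 : ∑ σ : Equiv.Perm (Fin a), ((Equiv.Perm.sign σ : ℤ) : ℂ) *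
      φ (Function.update (Function.update (R σ) p (u ^ (j + 2))) q
        (x (σ p) * (x (σ q) * v))) = 0 := by
    apply sum_sign_right_zero _ hpq
    intro σ
    congr 1
    funext i
    by_cases hiq : i = q
    · subst hiq
      rw [Function.update_self, Function.update_self]
      simp only [Equiv.Perm.coe_mul, Function.comp_apply, Equiv.swap_apply_left,
        Equiv.swap_apply_right]
      ring
    · rw [Function.update_of_ne hiq, Function.update_of_ne hiq]
      by_cases hip : i = p
      · subst hip
        rw [Function.update_self, Function.update_self]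
      · rw [Function.update_of_ne hip, Function.update_of_ne hip]
        simp only [R]
        rw [Equiv.Perm.coe_mul, Function.comp_apply, Equiv.swap_apply_of_ne_of_ne hip hiq]
  have h4 : ((j + 2 : ℕ) : ℂ) * ∑ σ : Equiv.Perm (Fin a), ((Equiv.Perm.sign σ : ℤ) : ℂ) *
      φ (fun i => x (σ i) *
        Function.update (Function.update P p (u ^ (j + 1))) q (u * v) i) = 0 := by
    rw [Finset.mul_sum]
    have h5 : ∀ σ : Equiv.Perm (Fin a), ((j + 2 : ℕ) : ℂ) * (((Equiv.Perm.sign σ : ℤ) : ℂ) *
        φ (fun i => x (σ i) *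
          Function.update (Function.update P p (u ^ (j + 1))) q (u * v) i)) =
        - (((Equiv.Perm.sign σ : ℤ) : ℂ) *
          φ (Function.update (Function.update (R σ) p (u ^ (j + 2))) q
            (x (σ p) * (x (σ q) * v)))) := by
      intro σ
      rw [h1, mul_left_comm, h2, mul_neg]
    rw [Finset.sum_congr rfl (fun σ _ => h5 σ), Finset.sum_neg_distrib, h3, neg_zero]
  exact (mul_eq_zero.1 h4).resolve_left (Nat.cast_ne_zero.2 (by omega))

/-- Iterated contractions. -/
theorem Col.altC_iter {a : ℕ} {L : Submodule ℂ A} {x : Fin a → A} (hx : ∀ i, x i ∈ L) :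
    ∀ (m j : ℕ) (φ : MultilinearMap ℂ (fun _ : Fin a => A) ℂ), Col L (j + m) φ →
      Col L j ((H280.altC x)^[m] φ) := by
  intro m
  induction m with
  | zero => intro j φ h; exact h
  | succ m ih =>
    intro j φ h
    rw [Function.iterate_succ_apply]
    exact ih j _ (Col.altC (j := j + m) h hx)

end Vale.Agent.P181.H73
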