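import Vale.Agent.P181.H73.Asm
import Mathlib.GroupTheory.Perm.Fin

set_option autoImplicit false
set_option linter.unusedSectionVars false

/-!
# P181: the rectangle `((a+1)^a)`

The full placement identity with `a + 1` columns.
-/

namespace Vale.Agent.P181.H73

open Vale.Agent.P181 Vale.Agent.P181.H280 Finset

variable {A : Type*} [CommRing A] [Algebra ℂ A]

/-- The product of the signs. -/
noncomputable def sg {N a : ℕ} (τ : Fin N → Equiv.Perm (Fin a)) : ℂ :=
  ∏ l, ((Equiv.Perm.sign (τ l) : ℤ) : ℂ)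

lemma sg_mul {N a : ℕ} (τ ρ : Fin N → Equiv.Perm (Fin a)) : sg (τ * ρ) = sg τ * sg ρ := by
  rw [sg, sg, sg, ← Finset.prod_mul_distrib]
  apply Finset.prod_congr rfl
  intro l _
  rw [Pi.mul_apply, map_mul]
  push_cast
  rfl

/-- The iterated contraction as one signed sum. -/
theorem altC_iter_apply {a : ℕ} (x : Fin a → A) (F : MultilinearMap ℂ (fun _ : Fin a => A) ℂ) :
    ∀ (N : ℕ) (P : Fin a → A), ((altC x)^[N] F) P =
      ∑ τ : Fin N → Equiv.Perm (Fin a), sg τ * F (fun p => (∏ l, x (τ l p)) * P p) := by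
  intro N
  induction N with
  | zero =>
    intro P
    rw [Function.iterate_zero, id]
    simp [sg]
  | succ N ih =>
    intro P
    rw [Function.iterate_succ_apply', altC_apply]
    simp only [ih]
    rw [← (Fin.consEquiv (fun _ : Fin (N + 1) => Equiv.Perm (Fin a))).sum_comp,
      Fintype.sum_prod_type]
    apply Finset.sum_congr rfl
    intro σ _
    rw [Finset.mul_sum]
    apply Finset.sum_congr rfl
    intro τ _
    rw [← mul_assoc]
    congr 1
    · rw [sg, sg, Fin.prod_univ_succ]
      rfl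
    · congr 1
      funext p
      rw [Fin.prod_univ_succ]
      show (∏ l, x (τ l p)) * (x (σ p) * P p) = (x (σ p) * ∏ l, x (τ l p)) * P p
      ring

section Rect

variable {a : ℕ}

/-- The letter of column `l` at particle `k`. -/
noncomputable def letter (x : Fin a → A) (τ : Fin (a + 1) → Equiv.Perm (Fin a))
    (l k : Fin (a + 1)) : A :=
  if h : l.cycleRange k = 0 then 1 else x (τ l ((l.cycleRange k).pred h))

lemma letter_self (x : Fin a → A) (τ : Fin (a + 1) → Equiv.Perm (Fin a)) (l : Fin (a + 1)) :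
    letter x τ l l = 1 := by
  rw [letter, dif_pos (Fin.cycleRange_self l)]

lemma cyc_succAbove (l : Fin (a + 1)) (p : Fin a) : l.cycleRange (l.succAbove p) = p.succ := by
  rw [← Fin.cycleRange_symm_succ, Equiv.apply_symm_apply]

lemma letter_succAbove (x : Fin a → A) (τ : Fin (a + 1) → Equiv.Perm (Fin a)) (l : Fin (a + 1))
    (p : Fin a) : letter x τ l (l.succAbove p) = x (τ l p) := by
  have h1 := cyc_succAbove l p
  rw [letter, dif_neg (by rw [h1]; exact Fin.succ_ne_zero p)]
  congr 2
  apply Fin.succ_injective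
  rw [Fin.succ_pred, h1]

/-- The particles. -/
noncomputable def arrR (x : Fin a → A) (τ : Fin (a + 1) → Equiv.Perm (Fin a)) :
    Fin (a + 1) → Fin a → A := fun k s => letter x τ (k.succAbove s) k

lemma prod_arrR (x : Fin a → A) (τ : Fin (a + 1) → Equiv.Perm (Fin a)) (i : Fin (a + 1)) :
    ∏ s, arrR x τ i s = ∏ l, letter x τ l i := by
  rw [Fin.prod_univ_succAbove (fun l => letter x τ l i) i, letter_self, one_mul]
  rfl

lemma letter_mem (L : Submodule ℂ A) {x : Fin a → A} (hx : ∀ i, x i ∈ L)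
    (τ : Fin (a + 1) → Equiv.Perm (Fin a)) {l k : Fin (a + 1)} (h : l ≠ k) :
    letter x τ l k ∈ L := by
  obtain ⟨p, rfl⟩ := Fin.exists_succAbove_eq h.symm
  rw [letter_succAbove]
  exact hx _

/-- The permutation of the positions in column `l` when particle `k` is dissolved. -/
noncomputable def posP (k l : Fin (a + 1)) : Equiv.Perm (Fin (a + 1)) :=
  (l.cycleRange) * (Equiv.swap k l) * (k.cycleRange)⁻¹

lemma posP_zero (k l : Fin (a + 1)) : posP k l 0 = 0 := by
  have h1 : (k.cycleRange)⁻¹ 0 = k := Fin.cycleRange_symm_zero k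
  rw [posP, Equiv.Perm.mul_apply, Equiv.Perm.mul_apply, h1, Equiv.swap_apply_left,
    Fin.cycleRange_self]

/-- The same on `Fin a`. -/
noncomputable def posQ (k l : Fin (a + 1)) : Equiv.Perm (Fin a) :=
  (Equiv.Perm.decomposeFin (posP k l)).2

lemma decompose_posP (k l : Fin (a + 1)) :
    Equiv.Perm.decomposeFin.symm (0, posQ k l) = posP k l := by
  have h1 : Equiv.Perm.decomposeFin (posP k l) = (0, posQ k l) := by
    apply Prod.ext
    · have h2 := Equiv.Perm.decomposeFin_symm_apply_zero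
        (Equiv.Perm.decomposeFin (posP k l)).1 (Equiv.Perm.decomposeFin (posP k l)).2
      rw [Prod.mk.eta, Equiv.symm_apply_apply, posP_zero] at h2
      exact h2.symm
    · rfl
  rw [← h1, Equiv.symm_apply_apply]

lemma posP_succ (k l : Fin (a + 1)) (p : Fin a) : posP k l p.succ = (posQ k l p).succ := by
  rw [← decompose_posP, Equiv.Perm.decomposeFin_symm_apply_succ, Equiv.swap_self]
  rfl

lemma sign_posQ (k l : Fin (a + 1)) : Equiv.Perm.sign (posQ k l) =
    (-1) ^ (l : ℕ) * Equiv.Perm.sign (Equiv.swap k l) * (-1) ^ (k : ℕ) := by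
  have h1 := Fin.sign_cycleRange l
  have h2 := Fin.sign_cycleRange k
  have h3 : Equiv.Perm.sign (posQ k l) = Equiv.Perm.sign (posP k l) := by
    rw [← decompose_posP, Equiv.Perm.decomposeFin.symm_sign]
    simp
  rw [h3, posP, map_mul, map_mul, Equiv.Perm.sign_inv, h1, h2]

/-- The letters that arrive at the particles when `k` is dissolved in the only possible way. -/
lemma letter_swap (x : Fin a → A) (τ : Fin (a + 1) → Equiv.Perm (Fin a)) (k l : Fin (a + 1))
    (p : Fin a) : letter x τ l (Equiv.swap k l (k.succAbove p)) = x (τ l (posQ k l p)) := by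
  have h1 : l.cycleRange (Equiv.swap k l (k.succAbove p)) = (posQ k l p).succ := by
    rw [← posP_succ, posP, Equiv.Perm.mul_apply, Equiv.Perm.mul_apply]
    congr 2
    exact (Fin.cycleRange_symm_succ k p).symm
  rw [letter, dif_neg (by rw [h1]; exact Fin.succ_ne_zero _)]
  congr 2
  apply Fin.succ_injective
  rw [Fin.succ_pred, h1]

lemma main_arg (x : Fin a → A) (τ : Fin (a + 1) → Equiv.Perm (Fin a)) (k : Fin (a + 1))
    (p : Fin a) : arrR x τ k p * ∏ s, arrR x τ (k.succAbove p) s =
      ∏ l, x (τ l (posQ k l p)) := by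
  rw [prod_arrR]
  simp only [← letter_swap]
  set i := k.succAbove p with hi
  rw [← Finset.mul_prod_erase univ (fun l => letter x τ l i) (Finset.mem_univ i),
    ← Finset.mul_prod_erase univ (fun l => letter x τ l (Equiv.swap k l i)) (Finset.mem_univ i),
    letter_self, one_mul, Equiv.swap_apply_right]
  congr 1
  apply Finset.prod_congr rfl
  intro l hl
  have hli : l ≠ i := Finset.ne_of_mem_erase hl
  congr 1
  by_cases hlk : k = l
  · rw [hlk, Equiv.swap_self]
    rfl
  · rw [Equiv.swap_apply_of_ne_of_ne (Fin.succAbove_ne k p) hli.symm]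

/-- Wrong placements cancel. -/
lemma wrong_zero (F : MultilinearMap ℂ (fun _ : Fin a => A) ℂ) (x : Fin a → A)
    (k : Fin (a + 1)) (σ : Equiv.Perm (Fin a)) (hσ : σ ≠ 1) :
    ∑ τ : Fin (a + 1) → Equiv.Perm (Fin a), sg τ *
      F (fun p => arrR x τ k (σ p) * ∏ s, arrR x τ (k.succAbove p) s) = 0 := by
  classical
  obtain ⟨p0, hp0⟩ : ∃ p0, σ p0 ≠ p0 := by
    by_contra h
    push Not at h
    exact hσ (Equiv.ext h)
  set l0 := k.succAbove (σ p0) with hl0
  set i0 := k.succAbove p0 with hi0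
  have hli : l0 ≠ i0 := fun h => hp0 (Fin.succAbove_right_injective h)
  have hlk : l0 ≠ k := Fin.succAbove_ne k _
  have hik : i0 ≠ k := Fin.succAbove_ne k _
  obtain ⟨u, hu⟩ := Fin.exists_succAbove_eq hlk.symm
  obtain ⟨v, hv⟩ := Fin.exists_succAbove_eq hli.symm
  have huv : u ≠ v := by
    rintro rfl
    exact hik (hv.symm.trans hu)
  let ρ : Fin (a + 1) → Equiv.Perm (Fin a) := Pi.mulSingle l0 (Equiv.swap u v)
  have hρ1 : ∀ τ : Fin (a + 1) → Equiv.Perm (Fin a), (τ * ρ) l0 = τ l0 * Equiv.swap u v := by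
    intro τ
    rw [Pi.mul_apply]
    congr 1
    exact Pi.mulSingle_eq_same _ _
  have hρ2 : ∀ (τ : Fin (a + 1) → Equiv.Perm (Fin a)) (l : Fin (a + 1)), l ≠ l0 →
      (τ * ρ) l = τ l := by
    intro τ l hl
    rw [Pi.mul_apply]
    have h1 : ρ l = 1 := Pi.mulSingle_eq_of_ne hl _
    rw [h1, mul_one]
  have hsg : ∀ τ : Fin (a + 1) → Equiv.Perm (Fin a), sg (τ * ρ) = - sg τ := by
    intro τ
    rw [sg_mul]
    have h1 : sg ρ = -1 := by
      rw [sg, Finset.prod_eq_single l0]
      · have h2 : ρ l0 = Equiv.swap u v := Pi.mulSingle_eq_same _ _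
        rw [h2, Equiv.Perm.sign_swap huv]
        simp
      · intro l _ hl
        have h2 : ρ l = 1 := Pi.mulSingle_eq_of_ne hl _
        rw [h2]
        simp
      · intro h
        exact absurd (Finset.mem_univ _) h
    rw [h1]
    ring
  -- the letters
  have hlet1 : ∀ (τ : Fin (a + 1) → Equiv.Perm (Fin a)) (l j : Fin (a + 1)), l ≠ l0 →
      letter x (τ * ρ) l j = letter x τ l j := by
    intro τ l j hl
    rw [letter, letter, hρ2 τ l hl]
  have hletk : ∀ τ : Fin (a + 1) → Equiv.Perm (Fin a),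
      letter x (τ * ρ) l0 k = letter x τ l0 i0 := by
    intro τ
    rw [← hu, letter_succAbove, ← hv, letter_succAbove, hρ1]
    simp
  have hleti : ∀ τ : Fin (a + 1) → Equiv.Perm (Fin a),
      letter x (τ * ρ) l0 i0 = letter x τ l0 k := by
    intro τ
    rw [← hv, letter_succAbove, ← hu, letter_succAbove, hρ1]
    simp
  have hleto : ∀ (τ : Fin (a + 1) → Equiv.Perm (Fin a)) (j : Fin (a + 1)), j ≠ k → j ≠ i0 →
      letter x (τ * ρ) l0 j = letter x τ l0 j := by
    intro τ j hjk hji
    by_cases hj : j = l0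
    · rw [hj, letter_self, letter_self]
    · obtain ⟨w, hw⟩ := Fin.exists_succAbove_eq hj
      have hwu : w ≠ u := by
        rintro rfl
        exact hjk (hw.symm.trans hu)
      have hwv : w ≠ v := by
        rintro rfl
        exact hji (hw.symm.trans hv)
      rw [← hw, letter_succAbove, letter_succAbove, hρ1, Equiv.Perm.mul_apply,
        Equiv.swap_apply_of_ne_of_ne hwu hwv]
  have harg : ∀ τ : Fin (a + 1) → Equiv.Perm (Fin a),
      (fun p => arrR x (τ * ρ) k (σ p) * ∏ s, arrR x (τ * ρ) (k.succAbove p) s) =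
      (fun p => arrR x τ k (σ p) * ∏ s, arrR x τ (k.succAbove p) s) := by
    intro τ
    funext p
    rw [prod_arrR, prod_arrR]
    by_cases hp : p = p0
    · subst hp
      rw [← hi0, ← Finset.mul_prod_erase univ (fun l => letter x (τ * ρ) l i0)
        (Finset.mem_univ l0), ← Finset.mul_prod_erase univ (fun l => letter x τ l i0)
        (Finset.mem_univ l0), hleti]
      have h1 : arrR x (τ * ρ) k (σ p) = letter x τ l0 i0 := by
        rw [arrR, ← hl0, hletk]
      have h2 : arrR x τ k (σ p) = letter x τ l0 k := by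
        rw [arrR, ← hl0]
      have h3 : ∏ l ∈ univ.erase l0, letter x (τ * ρ) l i0 =
          ∏ l ∈ univ.erase l0, letter x τ l i0 :=
        Finset.prod_congr rfl (fun l hl => hlet1 τ l i0 (Finset.ne_of_mem_erase hl))
      rw [h1, h2, h3]
      ring
    · have hi : k.succAbove p ≠ i0 := fun h => hp (Fin.succAbove_right_injective h)
      have hl : k.succAbove (σ p) ≠ l0 := fun h =>
        hp (σ.injective (Fin.succAbove_right_injective h))
      congr 1
      · rw [arrR, arrR, hlet1 τ _ k hl]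
      · apply Finset.prod_congr rfl
        intro l _
        by_cases hll : l = l0
        · rw [hll, hleto τ _ (Fin.succAbove_ne k p) hi]
        · rw [hlet1 τ l _ hll]
  have h5 : ∑ τ : Fin (a + 1) → Equiv.Perm (Fin a), sg τ *
      F (fun p => arrR x τ k (σ p) * ∏ s, arrR x τ (k.succAbove p) s) =
      - ∑ τ : Fin (a + 1) → Equiv.Perm (Fin a), sg τ *
      F (fun p => arrR x τ k (σ p) * ∏ s, arrR x τ (k.succAbove p) s) := by
    conv_lhs => rw [← Equiv.sum_comp (Equiv.mulRight ρ)]
    rw [← Finset.sum_neg_distrib]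
    apply Finset.sum_congr rfl
    intro τ _
    rw [Equiv.coe_mulRight, hsg, harg]
    ring
  exact self_eq_neg.1 h5

/-- The only good placement. -/
lemma good_eq (F : MultilinearMap ℂ (fun _ : Fin a => A) ℂ) (x : Fin a → A)
    (k : Fin (a + 1)) :
    ∑ τ : Fin (a + 1) → Equiv.Perm (Fin a), sg τ *
      F (fun p => arrR x τ k p * ∏ s, arrR x τ (k.succAbove p) s) =
    sg (fun l => posQ k l) * ((altC x)^[a + 1] F) (fun _ => 1) := by
  classical
  rw [altC_iter_apply, Finset.mul_sum,
    ← Equiv.sum_comp (Equiv.mulRight (fun l => posQ k l))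
      (fun τ => sg (fun l => posQ k l) * (sg τ * F (fun p => (∏ l, x (τ l p)) * 1)))]
  apply Finset.sum_congr rfl
  intro τ _
  rw [Equiv.coe_mulRight, sg_mul]
  have h1 : sg (fun l => posQ k l) * sg (fun l => posQ k l) = 1 := by
    rw [← sg_mul, sg]
    apply Finset.prod_eq_one
    intro l _
    rw [Pi.mul_apply, map_mul, ← sq]
    rcases Int.units_eq_one_or (Equiv.Perm.sign (posQ k l)) with h | h <;> rw [h] <;> simp
  have h2 : (fun p => arrR x τ k p * ∏ s, arrR x τ (k.succAbove p) s) =
      (fun p => (∏ l, x ((τ * fun l => posQ k l) l p)) * 1) := by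
    funext p
    rw [main_arg, mul_one]
    rfl
  rw [h2]
  calc sg τ * F (fun p => (∏ l, x ((τ * fun l => posQ k l) l p)) * 1)
      = (sg (fun l => posQ k l) * sg (fun l => posQ k l)) * sg τ *
        F (fun p => (∏ l, x ((τ * fun l => posQ k l) l p)) * 1) := by rw [h1, one_mul]
    _ = _ := by ring

/-- The signs do not depend on `k` when `a` is odd. -/
lemma sg_posQ (ha : Odd a) (k : Fin (a + 1)) :
    sg (fun l => posQ k l) = (∏ l : Fin (a + 1), (-1 : ℂ) ^ (l : ℕ)) * (-1) ^ a := by
  classical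
  have h1 : ∀ l : Fin (a + 1), ((Equiv.Perm.sign (posQ k l) : ℤ) : ℂ) =
      (-1) ^ (l : ℕ) * ((if l = k then 1 else -1) * (-1) ^ (k : ℕ)) := by
    intro l
    rw [sign_posQ]
    by_cases hl : l = k
    · rw [if_pos hl, hl, Equiv.swap_self, Equiv.Perm.sign_refl]
      push_cast
      ring
    · rw [if_neg hl, Equiv.Perm.sign_swap (Ne.symm hl)]
      push_cast
      ring
  rw [sg]
  simp only [h1]
  rw [Finset.prod_mul_distrib, Finset.prod_mul_distrib, Finset.prod_const, Finset.card_univ,
    Fintype.card_fin, ← pow_mul, Finset.prod_ite, Finset.prod_const_one, one_mul,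
    Finset.prod_const]
  have h2 : (univ.filter fun l : Fin (a + 1) => ¬ l = k).card = a := by
    rw [Finset.filter_ne' univ k, Finset.card_erase_of_mem (Finset.mem_univ k),
      Finset.card_univ, Fintype.card_fin, Nat.add_sub_cancel]
  rw [h2]
  have h3 : Even ((k : ℕ) * (a + 1)) := by
    apply Even.mul_left
    exact ha.add_one
  rw [h3.neg_one_pow, mul_one]

/-- **The full placement identity**, `a` odd. -/
theorem place_rect (ha : Odd a) (L : Submodule ℂ A)
    (F : MultilinearMap ℂ (fun _ : Fin a => A) ℂ) (x : Fin a → A) (hx : ∀ i, x i ∈ L)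
    (hF : ∀ y : Fin (a + 1) → Fin a → A, (∀ k s, y k s ∈ L) →
      ∑ k, ∑ σ : Equiv.Perm (Fin a), F (fun p => y k (σ p) * ∏ s, y (k.succAbove p) s) = 0) :
    ((altC x)^[a + 1] F) (fun _ => 1) = 0 := by
  classical
  have h1 : ∑ τ : Fin (a + 1) → Equiv.Perm (Fin a), sg τ *
      ∑ k, ∑ σ : Equiv.Perm (Fin a),
        F (fun p => arrR x τ k (σ p) * ∏ s, arrR x τ (k.succAbove p) s) = 0 := by
    apply Finset.sum_eq_zero
    intro τ _
    rw [hF (arrR x τ) (fun k s => letter_mem L hx τ (Fin.succAbove_ne k s)), mul_zero]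
  have h2 : ∑ τ : Fin (a + 1) → Equiv.Perm (Fin a), sg τ *
      ∑ k, ∑ σ : Equiv.Perm (Fin a),
        F (fun p => arrR x τ k (σ p) * ∏ s, arrR x τ (k.succAbove p) s) =
      ∑ k, ∑ σ : Equiv.Perm (Fin a), ∑ τ : Fin (a + 1) → Equiv.Perm (Fin a), sg τ *
        F (fun p => arrR x τ k (σ p) * ∏ s, arrR x τ (k.succAbove p) s) := by
    simp only [Finset.mul_sum]
    rw [Finset.sum_comm]
    apply Finset.sum_congr rfl
    intro k _
    rw [Finset.sum_comm]
  rw [h2] at h1
  have h3 : ∀ k : Fin (a + 1), ∑ σ : Equiv.Perm (Fin a),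
      ∑ τ : Fin (a + 1) → Equiv.Perm (Fin a), sg τ *
        F (fun p => arrR x τ k (σ p) * ∏ s, arrR x τ (k.succAbove p) s) =
      ((∏ l : Fin (a + 1), (-1 : ℂ) ^ (l : ℕ)) * (-1) ^ a) *
        ((altC x)^[a + 1] F) (fun _ => 1) := by
    intro k
    rw [Finset.sum_eq_single 1, ← sg_posQ ha k, ← good_eq]
    · rfl
    · intro σ _ hσ
      exact wrong_zero F x k σ hσ
    · intro h
      exact absurd (Finset.mem_univ _) h
  rw [Finset.sum_congr rfl (fun k _ => h3 k), Finset.sum_const, Finset.card_univ,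
    Fintype.card_fin, nsmul_eq_mul] at h1
  have h4 : (∏ l : Fin (a + 1), (-1 : ℂ) ^ (l : ℕ)) * (-1) ^ a ≠ 0 := by
    apply mul_ne_zero
    · exact Finset.prod_ne_zero_iff.2 (fun l _ => pow_ne_zero _ (by norm_num))
    · exact pow_ne_zero _ (by norm_num)
  have h5 := (mul_eq_zero.1 h1).resolve_left (Nat.cast_ne_zero.2 (Nat.succ_ne_zero a))
  exact (mul_eq_zero.1 h5).resolve_left h4

end Rect

end Vale.Agent.P181.H73
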