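import Vale.Agent.P181.H73.Rect
import Vale.Agent.P181.H394.Hyb2
import Vale.Agent.P181.H907.C

set_option autoImplicit false

/-!
# P181: `b = a + 1`, all shapes whose row `a` has at least three cells

The hybrid map `Sym^a(Sym^(a+1) V) → Sym^(a+1)(Sym^a V)` is injective on the highest weight
vectors of weight `lam` when `lam_a ≥ 3`, `dim V = a`.
-/

open scoped TensorProduct

namespace Vale.Agent.P181.H73

open Vale.Agent.P181 Vale.Agent.P181.H280 Finset MvPolynomial

variable {c : ℕ}

/-- An odd number of contractions gives zero on constant arguments when the number of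
contractions is odd (alternating forms on equal arguments). -/
lemma isSgn_const_zero {a κ : ℕ} {A : Type*} [CommRing A] [Algebra ℂ A] (hκ : Odd κ)
    {φ : MultilinearMap ℂ (fun _ : Fin (a + 2) => A) ℂ} (h : IsSgn κ φ) (z : A) :
    φ (fun _ => z) = 0 := by
  have h1 := h (Equiv.swap 0 1) (fun _ => z)
  rw [Equiv.Perm.sign_swap (by simp)] at h1
  have h2 : (((-1 : ℤˣ) : ℤ) : ℂ) ^ κ = -1 := by
    push_cast
    exact hκ.neg_one_pow
  rw [h2, neg_one_mul] at h1
  exact self_eq_neg.1 h1

/-- The hybrid map kills no highest weight vector with `lam_a ≥ 3`. -/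
theorem vanish_tall (lam : Fin (c + 3) → ℕ)
    (hanti : ∀ i, lam (Fin.last (c + 2)) ≤ lam i) (h3 : 3 ≤ lam (Fin.last (c + 2)))
    (hle : lam (Fin.last (c + 2)) ≤ c + 4)
    (l : (Fin (c + 3) → Fin (c + 4) → (Fin (c + 3) → ℂ)) →₀ ℂ)
    (hx : elOf l ∈ hwSpace lam (plethAct (c + 3) (c + 4) (c + 3)))
    (hF : ∀ y : Fin (c + 4) → Fin (c + 3) → MvPolynomial (Fin (c + 3)) ℂ,
      (∀ k s, y k s ∈ linS (c + 3)) → ∑ k, ∑ σ : Equiv.Perm (Fin (c + 3)),
        formOf l (fun p => y k (σ p) * ∏ s, y (k.succAbove p) s) = 0) :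
    elOf l = 0 := by
  classical
  rcases Nat.lt_or_ge (lam (Fin.last (c + 2))) (c + 4) with hlt | hge
  · exact vanish H907.cstmt lam hanti h3 (by omega) l hx hF
  · have heq : lam (Fin.last (c + 2)) = c + 4 := le_antisymm hle hge
    apply elOf_eq_zero
    set xs : Fin (c + 3) → MvPolynomial (Fin (c + 3)) ℂ := fun i => X i with hxs
    have hxL : ∀ i, xs i ∈ linS (c + 3) := fun i => X_mem_linS _
    have hHW : HWForm xs (fun i => pderiv i) (fun b => linS (c + 3) ^ b) (c + 4)
        (fun i => (lam i : ℂ)) (formOf l) := by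
      have h1 := hwForm_formOf (le_refl (c + 3)) lam l hx
      simpa using h1
    have hsgn : ∀ j : ℕ, IsSgn j ((altC xs)^[j] (formOf l)) := by
      intro j
      induction j with
      | zero => exact IsSymm.isSgn (formOf_symm l)
      | succ j ih =>
        rw [Function.iterate_succ_apply']
        exact ih.altC xs
    have hone : ((altC xs)^[c + 4] (formOf l)) (fun _ => 1) = 0 := by
      rcases Nat.even_or_odd (c + 3) with he | ho
      · exact isSgn_const_zero (a := c + 1) he.add_one (hsgn (c + 4)) 1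
      · exact place_rect ho (linS (c + 3)) (formOf l) xs hxL hF
    apply descent lam (formOf l) (formOf_symm l) hHW (c + 4) le_rfl
      (fun i => by rw [← heq]; exact hanti i)
    intro P hP
    rw [Nat.sub_self] at hP
    have h1 : ∀ i, ∃ t : ℂ, t • (1 : MvPolynomial (Fin (c + 3)) ℂ) = P i := by
      intro i
      have h2 := hP i
      rw [pow_zero, Submodule.mem_one] at h2
      obtain ⟨t, ht⟩ := h2
      exact ⟨t, by rw [← ht, Algebra.smul_def, mul_one]⟩
    choose t ht using h1
    have h2 : P = fun i => t i • (1 : MvPolynomial (Fin (c + 3)) ℂ) := by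
      funext i
      exact (ht i).symm
    rw [h2, MultilinearMap.map_smul_univ]
    rw [← hxs, hone, smul_zero]

/-- Foulkes' inequality for `(a, a + 1)` and `dim V = a`, `lam_a ≥ 3`; the hybrid map is an
explicit `GL(V)`-equivariant map which is injective on the isotypic component. -/
theorem tall_injOn {a : ℕ} (ha : 3 ≤ a) (lam : Fin a → ℕ) (hanti : Antitone lam)
    (hsum : ∑ i, lam i = a * (a + 1)) (h3 : ∀ i, 3 ≤ lam i) :
    (∀ x ∈ hwSpace lam (plethAct a (a + 1) a), H394.hyb a (Fin a → ℂ) x = 0 → x = 0) ∧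
      plethMult a (a + 1) a lam ≤ plethMult (a + 1) a a lam := by
  obtain ⟨c, rfl⟩ := Nat.exists_eq_add_of_le' ha
  have hlast : ∀ i, lam (Fin.last (c + 2)) ≤ lam i := fun i => hanti (Fin.le_last i)
  have hle : lam (Fin.last (c + 2)) ≤ c + 4 := by
    have h1 : ∑ _i : Fin (c + 3), lam (Fin.last (c + 2)) ≤ ∑ i, lam i :=
      Finset.sum_le_sum (fun i _ => hlast i)
    rw [Finset.sum_const, Finset.card_univ, Fintype.card_fin, smul_eq_mul, hsum] at h1
    exact Nat.le_of_mul_le_mul_left h1 (by omega)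
  have hinj : ∀ x ∈ hwSpace lam (plethAct (c + 3) (c + 3 + 1) (c + 3)),
      H394.hyb (c + 3) (Fin (c + 3) → ℂ) x = 0 → x = 0 := by
    intro x hx h0
    obtain ⟨l, rfl⟩ := exists_elOf x
    exact vanish_tall lam hlast (h3 _) hle l hx (fun y hy => H394.formOf_hyb l h0 y hy)
  exact ⟨hinj, H394.plethMult_le_of_hyb lam hinj⟩

end Vale.Agent.P181.H73
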