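import Vale.Agent.P181.H73.Tall
import Vale.Agent.P181.H530.Zero
import Vale.Agent.P181.H530.Pad

set_option autoImplicit false

/-!
# P181: `b = a + 1`, all shapes whose row `a` has at least three cells, any dimension
-/

open scoped TensorProduct

namespace Vale.Agent.P181.H73

open Vale.Agent.P181 Vale.Agent.P181.H280 Finset

/-- **Foulkes' inequality for `(a, a + 1)` and all shapes with `lam_a ≥ 3`**, any `dim V`. -/
theorem tall (a n : ℕ) (ha : 3 ≤ a) (lam : Fin n → ℕ)
    (h3 : ∀ i : Fin n, (i : ℕ) < a → 3 ≤ lam i) (han : a ≤ n) :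
    plethMult a (a + 1) n lam ≤ plethMult (a + 1) a n lam := by
  by_cases h0 : plethMult a (a + 1) n lam = 0
  · rw [h0]
    exact Nat.zero_le _
  · obtain ⟨hanti, hsum, hz⟩ := H530.zero_stmt a (a + 1) n lam h0
    obtain ⟨k, rfl⟩ := Nat.exists_eq_add_of_le han
    set mu : Fin a → ℕ := fun i => lam (Fin.castAdd k i) with hmu
    have hlam : lam = fun i : Fin (a + k) => if h : (i : ℕ) < a then mu ⟨i, h⟩ else 0 := by
      funext i
      by_cases hi : (i : ℕ) < a
      · rw [dif_pos hi, hmu]
        congr 1
      · rw [dif_neg hi]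
        exact hz i (by omega)
    rw [hlam, H530.pad_stmt a (a + 1) a k mu, H530.pad_stmt (a + 1) a a k mu]
    refine (tall_injOn ha mu ?_ ?_ ?_).2
    · intro i j hij
      have hij' : (i : ℕ) ≤ j := hij
      exact hanti (show Fin.castAdd k i ≤ Fin.castAdd k j from hij')
    · rw [← hsum, Fin.sum_univ_add]
      have h2 : ∑ i : Fin k, lam (Fin.natAdd a i) = 0 := by
        apply Finset.sum_eq_zero
        intro i _
        exact hz _ (by simp)
      rw [h2, add_zero]
    · intro i
      exact h3 (Fin.castAdd k i) (by simp)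

end Vale.Agent.P181.H73
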