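import Vale.Agent.P181.H73.TallQ

set_option autoImplicit false

/-!
# P181: `b = q a + 1`, `a` even: one more value of the last row, `lam_a ≤ (q - 1) a + 1 = b - a`
-/

open scoped TensorProduct

namespace Vale.Agent.P181.H73

open Vale.Agent.P181 Vale.Agent.P181.H280 Finset MvPolynomial

/-- **Foulkes' inequality for `(a, q a + 1)`, `a` even, `q ≥ 2`**: `n = a`. -/
theorem tallQe_self {a q b : ℕ} (ha : 4 ≤ a) (hae : Even a) (hq : 2 ≤ q) (lam : Fin a → ℕ)
    (hanti : Antitone lam) (hb : b = q * a + 1) (h4 : ∀ i, 4 ≤ lam i)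
    (hlo : ∀ i, 2 * q - 1 ≤ lam i) (hhi : ∃ i, lam i ≤ (q - 1) * a + 1)
    (ε : H394.T 1 a q ≃ Fin b) :
    plethMult a b a lam ≤ plethMult b a a lam := by
  obtain ⟨i0, hi0⟩ := hhi
  by_cases h1 : ∃ i, lam i ≤ (q - 1) * a
  · exact (tallQ_injOn ha hq lam hanti hb h4 hlo h1 ε).2
  · push Not at h1
    obtain ⟨c, rfl⟩ : ∃ c, a = c + 4 := ⟨a - 4, by omega⟩
    obtain ⟨p, rfl⟩ : ∃ p, q = p + 2 := ⟨q - 2, by omega⟩
    have hlast : ∀ i : Fin (c + 4), lam (Fin.last (c + 3)) ≤ lam i := fun i =>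
      hanti (Fin.le_last i)
    have h2 := h1 (Fin.last (c + 3))
    have h3 := hlast i0
    have h5 : (p + 2 - 1) * (c + 4) = p * (c + 4) + (c + 4) := by
      rw [show p + 2 - 1 = p + 1 by omega]
      ring
    have hlo' := hlo (Fin.last (c + 3))
    have h6 : 4 * p ≤ p * (c + 4) := by nlinarith
    have h7 : (p + 1) * (c + 4) = p * (c + 4) + (c + 4) := by ring
    rw [h5] at hi0 h2
    have hB0 : H270.B0 (p + 1) ≤ p * (c + 4) + 1 := by
      rw [H270.B0]
      split_ifs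
      · omega
      · omega
    refine (tallQ_core (q := p + 1) (by omega) lam hlast (p * (c + 4) + 1) c hB0 (by omega)
      ?_ le_rfl (by omega) hb ε).2
    rcases Nat.even_or_odd c with h | h
    · exact h
    · exfalso
      have h8 : Odd (c + 4) := by
        obtain ⟨k, hk⟩ := h
        exact ⟨k + 2, by omega⟩
      exact (Nat.not_even_iff_odd.2 h8) hae

/-- **Foulkes' inequality for `(a, q a + 1)`, `a` even, `q ≥ 2`**, any `n`: the first `a` rows
between `max(4, 2q-1)` and ..., the last of them at most `(q - 1) a + 1`. -/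
theorem tallQe (a q n : ℕ) (ha : 4 ≤ a) (hae : Even a) (hq : 2 ≤ q) (lam : Fin n → ℕ)
    (han : a ≤ n) (h4 : ∀ i : Fin n, (i : ℕ) < a → 4 ≤ lam i)
    (hlo : ∀ i : Fin n, (i : ℕ) < a → 2 * q - 1 ≤ lam i)
    (hhi : ∃ i : Fin n, (i : ℕ) < a ∧ lam i ≤ (q - 1) * a + 1) :
    plethMult a (q * a + 1) n lam ≤ plethMult (q * a + 1) a n lam := by
  apply all_n a (q * a + 1) n han lam
  intro mu hanti _ hmu
  refine tallQe_self ha hae hq mu hanti rfl (fun i => ?_) (fun i => ?_) ?_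
    ((H394.numE 1 a q).trans (finCongr (by ring)))
  · rw [hmu i]
    exact h4 _ i.2
  · rw [hmu i]
    exact hlo _ i.2
  · obtain ⟨i, hi, hi2⟩ := hhi
    refine ⟨⟨i, hi⟩, ?_⟩
    rw [hmu]
    exact hi2

end Vale.Agent.P181.H73
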